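import Crest.Agent.N221.NB.Defs
import Crest.Agent.N221.Ni.Defs
import Crest.Agent.N221.Fr.Tri
import Crest.Agent.N221.Ch.Sym

/-! Row 221, block NB: lift of the basic frames to `ZL m = ZZ m × ℝ`. -/

set_option autoImplicit false
set_option maxSynthPendingDepth 3

open Set Metric Filter Topology
open scoped ContDiff RealInnerProductSpace
open Crest.GeometryTopology.Submanifold
open Crest.Agent.R241.DDefs Crest.Agent.R241.D2
open Crest.Agent.R208.J Crest.Agent.R208.L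

noncomputable section

namespace Crest.Agent.N221

open NB

variable {m : ℕ} {F F' : Type} [NormedAddCommGroup F] [NormedSpace ℝ F] [NormedAddCommGroup F']
  [NormedSpace ℝ F']

/-- the lifted family -/
def lX (X : ZZ m → F →L[ℝ] ZZ m) (y : ZL m) : F →L[ℝ] ZL m := lif y.1 ∘L X y.1

lemma lX_apply (X : ZZ m → F →L[ℝ] ZZ m) (y : ZL m) (g : F) :
    lX X y g = (X y.1 g, -⟪y.1.2, (X y.1 g).1⟫) := rfl

lemma pull_apply (v w : ZL m) : pull (omL m) v w = om v.1 w.1 := by simp [pull]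

lemma contDiff_lif : ContDiff ℝ ∞ (lif (m := m)) :=
  contDiff_clm_apply_iff.2 fun _ => contDiff_const.prodMk
    ((contDiff_snd.inner ℝ contDiff_const).neg)

lemma contDiffOn_lX {X : ZZ m → F →L[ℝ] ZZ m} {U : Set (ZZ m)} (h : ContDiffOn ℝ ∞ X U) :
    ContDiffOn ℝ ∞ (lX X) (U ×ˢ univ) :=
  (contDiff_lif.comp contDiff_fst).contDiffOn.clm_comp (h.comp contDiffOn_fst fun _ h => h.1)

lemma fderiv_lX {X : ZZ m → F →L[ℝ] ZZ m} {y : ZL m} (h : DifferentiableAt ℝ X y.1) (v : ZL m)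
    (g : F) : fderiv ℝ (lX X) y v g = (fderiv ℝ X y.1 v.1 g,
      -(⟪y.1.2, (fderiv ℝ X y.1 v.1 g).1⟫ + ⟪v.1.2, (X y.1 g).1⟫)) := by
  have d0 : DifferentiableAt ℝ (lX X) y :=
    ((contDiff_lif.differentiable (by simp) y.1).comp y differentiableAt_fst).clm_comp
      (h.comp y differentiableAt_fst)
  have d1 := (h.hasFDerivAt.comp y hasFDerivAt_fst).clm_apply (hasFDerivAt_const g y)
  have d2 := d1.prodMk (((hasFDerivAt_snd.comp y (hasFDerivAt_fst (𝕜 := ℝ) (p := y))).inner ℝ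
    (hasFDerivAt_fst.comp y d1)).neg)
  rw [← Fr.fderiv_app d0, show fderiv ℝ (fun z => lX X z g) y = _ from d2.fderiv]
  simp

lemma lX_comm {X : ZZ m → F →L[ℝ] ZZ m} {Z : ZZ m → F' →L[ℝ] ZZ m} {y : ZL m}
    (hX : DifferentiableAt ℝ X y.1) (hZ : DifferentiableAt ℝ Z y.1) {a : F} {b : F'}
    (h0 : om (X y.1 a) (Z y.1 b) = 0)
    (h : fderiv ℝ Z y.1 (X y.1 a) b = fderiv ℝ X y.1 (Z y.1 b) a) :
    fderiv ℝ (lX Z) y (lX X y a) b = fderiv ℝ (lX X) y (lX Z y b) a := by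
  rw [fderiv_lX hZ, fderiv_lX hX, lX_apply, lX_apply, h, sub_eq_zero.1 h0]

lemma lX_bas {X : ZZ m → F →L[ℝ] ZZ m} {y v : ZL m} (hX : DifferentiableAt ℝ X y.1)
    (h : ∀ g w, om (fderiv ℝ X y.1 v.1 g) w = om (fderiv ℝ X y.1 w g) v.1) :
    NB.Bas (pull (omL m)) (lX X) y v := fun g w => by
  rw [pull_apply, pull_apply, fderiv_lX hX, fderiv_lX hX, h]

/-- LIFT -/
theorem PD.Frs.lift {P : PD m} (h : P.Ok) {U : Set (ZZ m)} {r k l : ℕ}
    {io : ZZ m → (Fin r → ℝ) →L[ℝ] ZZ m} {ze : ZZ m → (Fin k → ℝ) →L[ℝ] ZZ m}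
    {nu : ZZ m → (Fin l → ℝ) →L[ℝ] ZZ m} (hF : P.Frs U io ze nu) :
    NB.Frs (pull (omL m)) (U ×ˢ univ) (lX io) (lX ze) (lX nu) := by
  have da : ∀ {j : ℕ} {e : ZZ m → (Fin j → ℝ) →L[ℝ] ZZ m}, ContDiffOn ℝ ∞ e U → ∀ z ∈ U,
      DifferentiableAt ℝ e z := fun he z hz =>
    (he.contDiffAt (hF.op.mem_nhds hz)).differentiableAt (by simp)
  have iso : ∀ z ∈ U, ∀ a a', om (io z a) (io z a') = 0 := fun z hz a a' =>
    h.lag (hF.sub hz) (hF.io_E z hz a) (hF.io_E z hz a')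
  exact ⟨fun v w => by rw [pull_apply, pull_apply, om_antisymm], hF.op.prod isOpen_univ,
    contDiffOn_lX hF.sio, contDiffOn_lX hF.sze, contDiffOn_lX hF.snu,
    fun y hy g hg => hF.iio _ hy.1 (by
      rw [map_zero]
      exact om_nd fun w => (pull_apply _ (w, 0)).symm.trans (hg _)),
    fun y hy a b e => hF.ize _ hy.1 (congrArg Prod.fst e),
    fun y hy a b e => hF.inu _ hy.1 (congrArg Prod.fst e),
    fun y hy g => (hF.ze_io _ hy.1 g).imp fun a ha => by rw [lX_apply, lX_apply, ha],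
    fun y hy a a' => (pull_apply _ _).trans (iso _ hy.1 a a'),
    fun y hy g => lX_bas (da hF.sio _ hy.1) (hF.bio _ hy.1 g),
    fun y hy g => lX_bas (da hF.snu _ hy.1) (hF.bnu _ hy.1 g),
    fun y hy a a' => lX_comm (da hF.sio _ hy.1) (da hF.sio _ hy.1) (iso _ hy.1 a a')
      (hF.cio _ hy.1 a a'),
    fun y hy a b => lX_comm (da hF.sze _ hy.1) (da hF.snu _ hy.1) (hF.orth _ hy.1 a b)
      (hF.czn _ hy.1 b a).symm⟩

namespace Cov

variable {n N : ℕ} {a : ℝ} {S : Set (Euc N)} {G : Geo n N (-(a ^ 2)) S} (C : Cov G)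
  {f f' : FF n N m} {y : ZL m} {g : Euc n → Euc n} (H : Hyp n N a S) (hm : m + 1 = n)
  (hf : C.Frm f)
include H hm hf

lemma contDiffAt_Lt' (hf' : C.Frm f') (hy : y.1 ∈ C.dm f f') (t : ℝ) :
    ContDiffAt ℝ ∞ (C.Lt f f' t) y :=
  ((C.contDiffAt_Tf H hm hf hf' hy).comp y contDiffAt_fst).prodMk
    ((contDiffAt_snd.sub ((C.contDiffAt_tm H hm hf hf' hy).comp y contDiffAt_fst)).add
      contDiffAt_const)

lemma fderiv_Lt' (hf' : C.Frm f') (hy : y.1 ∈ C.dm f f') (t : ℝ) (v : ZL m) :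
    fderiv ℝ (C.Lt f f' t) y v =
      (fderiv ℝ (C.Tf f f') y.1 v.1, v.2 - fderiv ℝ (C.tm f f') y.1 v.1) := by
  have d := ((((C.contDiffAt_Tf H hm hf hf' hy).differentiableAt (by simp)).hasFDerivAt).comp y
    hasFDerivAt_fst).prodMk ((hasFDerivAt_snd.sub ((((C.contDiffAt_tm H hm hf hf'
      hy).differentiableAt (by simp)).hasFDerivAt).comp y hasFDerivAt_fst)).add_const t)
  rw [show fderiv ℝ (C.Lt f f' t) y = _ from d.fderiv]
  rfl

lemma fderiv_Lt_lif' (hf' : C.Frm f') (hy : y.1 ∈ C.dm f f') (t : ℝ) (v : ZZ m) :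
    fderiv ℝ (C.Lt f f' t) y (lif y.1 v) =
      lif (C.Lt f f' t y).1 (fderiv ℝ (C.Tf f f') y.1 v) := by
  rw [C.fderiv_Lt' H hm hf hf' hy, lif_apply, lif_apply]
  refine Prod.ext rfl ?_
  have := C.exact_Tf H hm hf hf' hy v
  simp only [Lt]
  linarith

lemma pull_Lt (hf' : C.Frm f') (hy : y.1 ∈ C.dm f f') (t : ℝ) (v w : ZL m) :
    pull (omL m) (fderiv ℝ (C.Lt f f' t) y v) (fderiv ℝ (C.Lt f f' t) y w) =
      pull (omL m) v w := by
  rw [pull_apply, pull_apply, C.fderiv_Lt' H hm hf hf' hy, C.fderiv_Lt' H hm hf hf' hy,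
    C.om_Tf H hm hf hf' hy]

lemma rg_Lt (hf' : C.Frm f') (hy : y.1 ∈ C.dm f f') (t : ℝ) {X : ZZ m → F →L[ℝ] ZZ m}
    (h : ∀ b, ∃ b', fderiv ℝ (C.Tf f f') y.1 (X y.1 b) = X (C.Tf f f' y.1) b') :
    Rg (fderiv ℝ (C.Lt f f' t) y) (lX X y) (lX X (C.Lt f f' t y)) := fun b =>
  (h b).imp fun b' hb => by
    rw [show lX X y b = lif y.1 (X y.1 b) from rfl, C.fderiv_Lt_lif' H hm hf hf' hy, hb]
    rfl

omit H hm hf in
lemma R_ret (hg : C.Deck g) {z : ZZ m} (hz : z ∈ C.dm f (fg g f)) :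
    (C.pd f).R z (C.Tf f (fg g f)) false := ⟨g, hg, hz, Eventually.of_forall fun _ => rfl⟩

/-- the differential data of the field `Box.loc` -/
lemma lt_loc {U : Set (ZZ m)} {r k l : ℕ} {io : ZZ m → (Fin r → ℝ) →L[ℝ] ZZ m}
    {ze : ZZ m → (Fin k → ℝ) →L[ℝ] ZZ m} {nu : ZZ m → (Fin l → ℝ) →L[ℝ] ZZ m}
    (hF : (C.pd f).Frs U io ze nu) (hg : C.Deck g) (hf' : C.Frm (fg g f))
    (hy : y.1 ∈ C.dm f (fg g f)) (h1 : y.1 ∈ U) (t : ℝ) (h2 : (C.Lt f (fg g f) t y).1 ∈ U) :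
    ∀ᶠ x in 𝓝 y, x.1 ∈ C.dm f (fg g f) ∧ (∀ v w, pull (omL m) (fderiv ℝ (C.Lt f (fg g f) t) x v)
      (fderiv ℝ (C.Lt f (fg g f) t) x w) = pull (omL m) v w) ∧
      Rg (fderiv ℝ (C.Lt f (fg g f) t) x) (lX io x) (lX io (C.Lt f (fg g f) t x)) ∧
      Rg (fderiv ℝ (C.Lt f (fg g f) t) x) (lX ze x) (lX ze (C.Lt f (fg g f) t x)) := by
  filter_upwards [continuousAt_fst.eventually ((C.isOpen_dm H hm hf hf').mem_nhds hy),
    continuousAt_fst.eventually (hF.op.mem_nhds h1),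
    (continuousAt_fst.comp (C.contDiffAt_Lt' H hm hf hf' hy t).continuousAt).eventually
      (hF.op.mem_nhds h2)] with x a1 a2 a3
  exact ⟨a1, C.pull_Lt H hm hf hf' a1 t,
    C.rg_Lt H hm hf hf' a1 t (hF.mio _ a2 _ (C.R_ret hg a1) a3),
    C.rg_Lt H hm hf hf' a1 t (hF.mze _ a2 _ (C.R_ret hg a1) a3)⟩

end Cov

end Crest.Agent.N221
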