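import Crest.Agent.N221.A1.PAll
import Crest.Agent.N221.Ex.UB

/-! Row 221, block NB: almost polynomial curves `AP`, the curve lemma for a linear cocycle over
a chain (`clv`) and for the tangent lift (`clt`). -/

set_option autoImplicit false

open Set Metric Filter
open scoped ContDiff Topology

namespace Crest.Agent.N221.NB

open PS Ex

section AP
variable {V V' : Type} [NormedAddCommGroup V] [NormedSpace ℝ V] [NormedAddCommGroup V']
  [NormedSpace ℝ V'] {N : ℕ} {ε ε' : ℝ} {f g : ℝ → V}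

/-- polynomial of degree `< N` up to `ε` on `[0,1]` -/
structure AP (N : ℕ) (ε : ℝ) (f : ℝ → V) : Prop where
  sm : ∀ t ∈ Icc (0 : ℝ) 1, ContDiffAt ℝ ∞ f t
  bd : ∀ t ∈ Icc (0 : ℝ) 1, ‖iteratedDeriv N f t‖ ≤ ε

theorem AP.nonneg (h : AP N ε f) : 0 ≤ ε := (norm_nonneg _).trans (h.bd 0 ⟨le_rfl, zero_le_one⟩)

theorem AP.mono (h : AP N ε f) (he : ε ≤ ε') : AP N ε' f :=
  ⟨h.sm, fun t ht => (h.bd t ht).trans he⟩

theorem AP.cont (h : AP N ε f) : ContinuousOn f (Icc 0 1) :=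
  fun t ht => (h.sm t ht).continuousAt.continuousWithinAt

theorem AP.congr (h : AP N ε f) (e : ∀ t ∈ Icc (0 : ℝ) 1, g =ᶠ[𝓝 t] f) : AP N ε g :=
  ⟨fun t ht => (h.sm t ht).congr_of_eventuallyEq (e t ht),
    fun t ht => by rw [(e t ht).iteratedDeriv_eq]; exact h.bd t ht⟩

theorem AP.add (h : AP N ε f) (h' : AP N ε' g) : AP N (ε + ε') fun t => f t + g t :=
  ⟨fun t ht => (h.sm t ht).add (h'.sm t ht), fun t ht => by
    rw [iteratedDeriv_fun_add ((h.sm t ht).of_le (le_infty N)) ((h'.sm t ht).of_le (le_infty N))]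
    exact norm_add_le_of_le (h.bd t ht) (h'.bd t ht)⟩

theorem AP.smul (h : AP N ε f) (c : ℝ) : AP N (|c| * ε) fun t => c • f t :=
  ⟨fun t ht => (h.sm t ht).const_smul c, fun t ht => by
    rw [iteratedDeriv_fun_const_smul ((h.sm t ht).of_le (le_infty N)), norm_smul, Real.norm_eq_abs]
    exact mul_le_mul_of_nonneg_left (h.bd t ht) (abs_nonneg c)⟩

theorem AP.sub (h : AP N ε f) (h' : AP N ε' g) : AP N (ε + ε') fun t => f t - g t := by
  have := h.add (h'.smul (-1))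
  simpa [sub_eq_add_neg] using this

theorem AP.flip (h : AP N ε f) : AP N ε fun t => f (1 - t) := by
  have hm : ∀ t ∈ Icc (0 : ℝ) 1, 1 - t ∈ Icc (0 : ℝ) 1 := fun t ht =>
    ⟨by linarith [ht.2], by linarith [ht.1]⟩
  refine ⟨fun t ht => (h.sm _ (hm t ht)).comp t (by fun_prop), fun t ht => ?_⟩
  rw [iteratedDeriv_comp_const_sub, norm_smul]
  simpa using h.bd _ (hm t ht)

/-- Remez from `[0, l]` -/
theorem AP.remez [CompleteSpace V] (h : AP (N + 1) ε f) {l η : ℝ} (hl : 0 < l) (hl1 : l ≤ 1)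
    (hη : ∀ t ∈ Icc 0 l, ‖f t‖ ≤ η) : ∀ t ∈ Icc (0 : ℝ) 1, ‖f t‖ ≤ (6 / l) ^ N * (η + ε) + ε :=
  rmS V N f l η ε hl hl1 h.sm hη h.bd

/-- Remez from `[1 - l, 1]` -/
theorem AP.remez' [CompleteSpace V] (h : AP (N + 1) ε f) {l η : ℝ} (hl : 0 < l) (hl1 : l ≤ 1)
    (hη : ∀ t ∈ Icc (1 - l) 1, ‖f t‖ ≤ η) :
    ∀ t ∈ Icc (0 : ℝ) 1, ‖f t‖ ≤ (6 / l) ^ N * (η + ε) + ε := by
  intro t ht
  have := h.flip.remez hl hl1 (η := η) (fun s hs => hη _ ⟨by linarith [hs.2], by linarith [hs.1]⟩)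
    (1 - t) ⟨by linarith [ht.2], by linarith [ht.1]⟩
  simpa using this

/-- Markov: an almost polynomial curve is Lipschitz -/
theorem AP.lip (N : ℕ) : ∃ C : ℝ, 1 ≤ C ∧ ∀ (V : Type) [NormedAddCommGroup V] [NormedSpace ℝ V]
    [CompleteSpace V] (f : ℝ → V) (ε m : ℝ), AP (N + 1) ε f → (∀ t ∈ Icc (0 : ℝ) 1, ‖f t‖ ≤ m) →
    ∀ s ∈ Icc (0 : ℝ) 1, ∀ t ∈ Icc (0 : ℝ) 1, ‖f s - f t‖ ≤ C * (m + ε) * |s - t| := by
  obtain ⟨C, hC, h⟩ := intS (N + 1)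
  refine ⟨C, hC, fun V _ _ _ f ε m hf hm s hs t ht => ?_⟩
  have := (convex_Icc (0 : ℝ) 1).norm_image_sub_le_of_norm_deriv_le (f := f) (C := C * (m + ε))
    (fun u hu => (hf.sm u hu).differentiableAt (by simp))
    (fun u hu => by simpa using h V f m ε hf.sm hm hf.bd 1 (by omega) u hu) ht hs
  simpa using this

theorem iteratedDeriv_pair {f : ℝ → V} {g : ℝ → V'} {t : ℝ} (hf : ContDiffAt ℝ ∞ f t)
    (hg : ContDiffAt ℝ ∞ g t) (j : ℕ) : iteratedDeriv j (fun t => (f t, g t)) t =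
      (iteratedDeriv j f t, iteratedDeriv j g t) := by
  simp only [iteratedDeriv_eq_iteratedFDeriv]
  rw [iteratedFDeriv_prodMk hf hg (le_infty j)]
  rfl

end AP

variable {E W F : Type} [NormedAddCommGroup E] [NormedSpace ℝ E] [NormedAddCommGroup W]
  [NormedSpace ℝ W] [NormedAddCommGroup F] [NormedSpace ℝ F]

theorem ub_fst {ι : Type} (R : ℝ) : UB (fun _ : ι => ball (0 : E × W) R) fun _ y => y.1 :=
  (UB.id (M := R) (fun _ => isOpen_ball) fun _ _ hx => (mem_ball_zero_iff.1 hx).le).clm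
    (ContinuousLinearMap.fst ℝ E W)

theorem ub_snd {ι : Type} (R : ℝ) : UB (fun _ : ι => ball (0 : E × W) R) fun _ y => y.2 :=
  (UB.id (M := R) (fun _ => isOpen_ball) fun _ _ hx => (mem_ball_zero_iff.1 hx).le).clm
    (ContinuousLinearMap.snd ℝ E W)

theorem fst_ball {R : ℝ} {y : E × W} (h : y ∈ ball (0 : E × W) R) : y.1 ∈ ball (0 : E) R :=
  mem_ball_zero_iff.2 ((norm_fst_le y).trans_lt (mem_ball_zero_iff.1 h))

set_option maxHeartbeats 800000 in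
/-- CURVE LEMMA for a linear cocycle `A` over the chain `Φ` -/
theorem clv [CompleteSpace E] [CompleteSpace W] {ι ι' : Type} {R g α β : ℝ} (K : ℝ) (d : ℕ → ℝ)
    {Φ : ι → E → E} {A : ι → E → W →L[ℝ] W} {G : ι' → E × W → F} {p : ℕ} (hR : 0 < R) (hg : 0 < g)
    (hα : 0 ≤ α) (hβ : 0 ≤ β) (hΦ : UB (fun _ => ball 0 R) Φ) (hA : UB (fun _ => ball 0 R) A)
    (hG : UB (fun _ => ball 0 R) G)
    (hom : ∀ j y v (c : ℝ), 0 < c → G j (y, c • v) = c ^ p • G j (y, v)) :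
    ∃ N1 : ℕ, ∀ N, N1 ≤ N → ∃ T0 : ℕ, ∀ (S0 T : ℕ) (i : ℕ → ι) (x : ℕ → ℝ → E) (v : ℕ → ℝ → W),
      T0 ≤ T →
      (∀ S, S0 ≤ S → S < T → ∀ τ ∈ Icc (0 : ℝ) 1, x S =ᶠ[𝓝 τ] (fun t => Φ (i S) (x (S + 1) t)) ∧
        v S =ᶠ[𝓝 τ] fun t => A (i S) (x (S + 1) t) (v (S + 1) t)) →
      (∀ τ ∈ Icc (0 : ℝ) 1, ContDiffAt ℝ ∞ (x T) τ ∧ ContDiffAt ℝ ∞ (v T) τ) →
      (∀ S, S0 ≤ S → S ≤ T → ∀ τ ∈ Icc (0 : ℝ) 1, ‖x S τ‖ ≤ K * Real.exp (-(2 * g * T))) →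
      (∀ j, ∀ τ ∈ Icc (0 : ℝ) 1,
        (1 ≤ j → ‖iteratedDeriv j (x T) τ‖ ≤ d j * Real.exp (α * T) * Real.exp (-(g * T)) ^ j) ∧
        ‖iteratedDeriv j (v T) τ‖ ≤ d j * Real.exp (α * T) * Real.exp (-(g * T)) ^ j) →
      ∀ S, S0 ≤ S → S ≤ T →
        (∀ τ ∈ Icc (0 : ℝ) 1, ContDiffAt ℝ ∞ (x S) τ ∧ ContDiffAt ℝ ∞ (v S) τ ∧
          ∀ j, 1 ≤ j → j ≤ N → ‖iteratedDeriv j (x S) τ‖ ≤ Real.exp (-(g * T))) ∧
        ∀ j, AP N (Real.exp (-(β * T))) fun t => G j (x S t, v S t) := by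
  have hm : ∀ _ : ι, MapsTo (fun y : E × W => y.1) (ball 0 R) (ball 0 R) := fun _ _ h => fst_ball h
  have hL : UB (fun _ : ι => ball (0 : E × W) R) fun i y => (Φ i y.1, A i y.1 y.2) :=
    (hΦ.comp (ub_fst R) hm).prod ((hA.comp (ub_fst R) hm).clm_apply (ub_snd R))
  obtain ⟨c1, hc1, h1⟩ := hL.bds
  obtain ⟨c2, hc2, h2⟩ := hG.bds
  obtain ⟨b, hb, h3⟩ := hA.bdn 0
  set γ := α + Real.log b + 2 * g with hγ
  have hlb : 0 ≤ Real.log b := Real.log_nonneg hb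
  have hγ0 : 0 ≤ γ := by positivity
  obtain ⟨N1, hN1⟩ := cl R (c1 1) g α (β + p * γ) (max K |d 0|) (fun k => c1 k + c2 k)
    (fun k => |d k|) hR (by linarith [hc1 1]) hg hα (by positivity)
  refine ⟨N1, fun N hN => ?_⟩
  obtain ⟨T0, hT0⟩ := hN1 N hN
  obtain ⟨T1, hT1⟩ := eventually_atTop.1 (ev_small (max K |d 0|) (2 * g) R (by positivity) hR)
  refine ⟨max T0 T1, fun S0 T i x v hT hch hsm hx hder => ?_⟩
  have hT' : (0 : ℝ) ≤ T := by positivity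
  set lam := Real.exp (-(γ * T)) with hlam
  have hl0 : 0 < lam := Real.exp_pos _
  have hl1 : lam ≤ 1 := Real.exp_le_one_iff.2 (by have := mul_nonneg hγ0 hT'; linarith)
  have hw0 : 0 < Real.exp (-(g * T)) := Real.exp_pos _
  have hw1 : Real.exp (-(g * T)) ≤ 1 :=
    Real.exp_le_one_iff.2 (by have := mul_nonneg hg.le hT'; linarith)
  have hball : ∀ S, S0 ≤ S → S ≤ T → ∀ τ ∈ Icc (0 : ℝ) 1, x S τ ∈ ball (0 : E) R :=
    fun S a1 a2 τ hτ => mem_ball_zero_iff.2 (((hx S a1 a2 τ hτ).trans (mul_le_mul_of_nonneg_right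
      (le_max_left _ _) (Real.exp_pos _).le)).trans_lt (hT1 T ((le_max_right _ _).trans hT)))
  have hv : ∀ k S, S0 ≤ S → S + k = T → ∀ τ ∈ Icc (0 : ℝ) 1,
      ‖v S τ‖ ≤ b ^ k * (|d 0| * Real.exp (α * T)) := by
    intro k
    induction k with
    | zero =>
      intro S _ a2 τ hτ
      obtain rfl : S = T := by omega
      have := (hder 0 τ hτ).2
      simp only [iteratedDeriv_zero, pow_zero, mul_one, one_mul] at this ⊢
      exact this.trans (mul_le_mul_of_nonneg_right (le_abs_self _) (Real.exp_pos _).le)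
    | succ k ih =>
      intro S a1 a2 τ hτ
      rw [(hch S a1 (by omega) τ hτ).2.eq_of_nhds]
      have a3 := h3 0 le_rfl (i S) _ (hball (S + 1) (by omega) (by omega) τ hτ)
      rw [norm_iteratedFDeriv_zero] at a3
      refine (ContinuousLinearMap.le_opNorm _ _).trans ?_
      rw [pow_succ', mul_assoc]
      exact mul_le_mul a3 (ih (S + 1) (by omega) (by omega) τ hτ) (norm_nonneg _) (by linarith)
  have hsmall : ∀ S, S0 ≤ S → S ≤ T → ∀ τ ∈ Icc (0 : ℝ) 1,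
      ‖(x S τ, lam • v S τ)‖ ≤ max K |d 0| * Real.exp (-(2 * g * T)) := by
    intro S a1 a2 τ hτ
    have hE := Real.exp_pos (-(2 * g * T))
    refine (Prod.norm_def _).le.trans (max_le ((hx S a1 a2 τ hτ).trans
      (mul_le_mul_of_nonneg_right (le_max_left _ _) hE.le)) ?_)
    obtain ⟨k, hk⟩ := Nat.exists_eq_add_of_le a2
    have a3 := hv k S a1 hk.symm τ hτ
    have a4 : b ^ k ≤ Real.exp (Real.log b * T) := by
      rw [mul_comm, Real.exp_nat_mul, Real.exp_log (by linarith)]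
      exact pow_le_pow_right₀ hb (by omega)
    simp only [norm_smul, Real.norm_eq_abs, abs_of_pos hl0]
    calc lam * ‖v S τ‖ ≤ lam * (Real.exp (Real.log b * T) * (|d 0| * Real.exp (α * T))) := by
          refine mul_le_mul_of_nonneg_left (a3.trans ?_) hl0.le
          gcongr
      _ = |d 0| * Real.exp (-(2 * g * T)) := by
          rw [hlam, hγ, mul_left_comm (Real.exp _) (|d 0|), mul_left_comm _ (|d 0|),
            ← Real.exp_add, ← Real.exp_add]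
          congr 2; ring
      _ ≤ _ := mul_le_mul_of_nonneg_right (le_max_right _ _) hE.le
  have key := hT0 (E × W) F S0 T (fun S y => (Φ (i S) y.1, A (i S) y.1 y.2))
    (fun S t => (x S t, lam • v S t)) ((le_max_left _ _).trans hT) (by
      intro S _ _
      refine ⟨hL.sm (i S), fun y hy => ⟨?_, fun k _ => (h1 k (i S) y hy).trans ?_⟩⟩
      · rw [← norm_iteratedFDeriv_one]; exact h1 1 (i S) y hy
      · linarith [hc2 k]) (by
      intro S a1 a2 τ hτ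
      filter_upwards [(hch S a1 a2 τ hτ).1, (hch S a1 a2 τ hτ).2] with t e1 e2
      simp only [Function.comp, e1, e2, map_smul])
    (fun τ hτ => (hsm τ hτ).1.prodMk ((hsm τ hτ).2.const_smul lam)) hsmall (by
      intro j hj τ hτ
      rw [iteratedDeriv_pair (hsm τ hτ).1 ((hsm τ hτ).2.const_smul lam),
        iteratedDeriv_fun_const_smul ((hsm τ hτ).2.of_le (le_infty j))]
      have a1 : d j * Real.exp (α * T) * Real.exp (-(g * T)) ^ j
          ≤ |d j| * Real.exp (α * T) * Real.exp (-(g * T)) ^ Nat.log 2 j :=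
        mul_le_mul (mul_le_mul_of_nonneg_right (le_abs_self _) (Real.exp_pos _).le)
          (pow_le_pow_of_le_one hw0.le hw1 (Nat.log_le_self 2 j)) (by positivity) (by positivity)
      refine (Prod.norm_def _).le.trans (max_le (((hder j τ hτ).1 hj).trans a1) ?_)
      simp only [norm_smul, Real.norm_eq_abs, abs_of_pos hl0]
      exact (mul_le_of_le_one_left (norm_nonneg _) hl1).trans ((hder j τ hτ).2.trans a1))
  intro S a1 a2
  have hsx : ∀ τ ∈ Icc (0 : ℝ) 1, ContDiffAt ℝ ∞ (x S) τ := fun τ hτ => (key S a1 a2 τ hτ).1.fst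
  have hsv' : ∀ τ ∈ Icc (0 : ℝ) 1, ContDiffAt ℝ ∞ (fun t => lam • v S t) τ :=
    fun τ hτ => (key S a1 a2 τ hτ).1.snd
  have hsv : ∀ τ ∈ Icc (0 : ℝ) 1, ContDiffAt ℝ ∞ (v S) τ := fun τ hτ => by
    have := (hsv' τ hτ).const_smul lam⁻¹
    simpa [smul_smul, inv_mul_cancel₀ hl0.ne'] using this
  refine ⟨fun τ hτ => ⟨hsx τ hτ, hsv τ hτ, fun j hj1 hj => ?_⟩, fun j => ?_⟩
  · have := (key S a1 a2 τ hτ).2.1 j hj1 hj
    rw [iteratedDeriv_pair (hsx τ hτ) (hsv' τ hτ)] at this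
    exact (norm_fst_le (_, _)).trans this
  · have h0 : AP N (Real.exp (-((β + p * γ) * T))) fun t => G j (x S t, lam • v S t) := by
      refine ⟨fun τ hτ => ?_, fun τ hτ => (key S a1 a2 τ hτ).2.2 (G j) (hG.sm j)
        fun y hy k _ => (h2 k j y hy).trans (by linarith [hc1 k])⟩
      exact ((hG.at (mem_ball_zero_iff.2 ((hsmall S a1 a2 τ hτ).trans_lt
        (hT1 T ((le_max_right _ _).trans hT))))).comp τ (key S a1 a2 τ hτ).1 :)
    have h4 := h0.smul (lam ^ p)⁻¹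
    have e : |(lam ^ p)⁻¹| * Real.exp (-((β + p * γ) * T)) = Real.exp (-(β * T)) := by
      rw [abs_of_pos (by positivity), hlam, ← Real.exp_nat_mul, ← Real.exp_neg, ← Real.exp_add]
      congr 1; ring
    rw [e] at h4
    refine h4.congr fun t _ => Eventually.of_forall fun s => ?_
    simp only [hom j _ _ lam hl0, smul_smul, inv_mul_cancel₀ (pow_pos hl0 p).ne', one_smul]

/-- componentwise action on tuples -/
noncomputable def cw (E : Type) [NormedAddCommGroup E] [NormedSpace ℝ E] (κ : Type) [Fintype κ] :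
    (E →L[ℝ] E) →L[ℝ] (κ → E) →L[ℝ] κ → E :=
  LinearMap.mkContinuous₂ (LinearMap.mk₂ ℝ (fun B v j => B (v j)) (fun _ _ _ => by ext; simp)
    (fun _ _ _ => by ext; simp) (fun _ _ _ => by ext; simp) (fun _ _ _ => by ext; simp)) 1
    fun B v => (pi_norm_le_iff_of_nonneg (by positivity)).2 fun j => by
      rw [one_mul]; exact (B.le_opNorm _).trans
        (mul_le_mul_of_nonneg_left (norm_le_pi_norm v j) (norm_nonneg _))

theorem cw_apply {κ : Type} [Fintype κ] (B : E →L[ℝ] E) (v : κ → E) (j : κ) :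
    cw E κ B v j = B (v j) := rfl

/-- CURVE LEMMA for the tangent lift: tuples of vectors pushed by `DΦ` -/
theorem clt [CompleteSpace E] {ι ι' κ : Type} [Fintype κ] {R g α β : ℝ} (K : ℝ) (d : ℕ → ℝ)
    {Φ : ι → E → E} {G : ι' → E × (κ → E) → F} {p : ℕ} (hR : 0 < R) (hg : 0 < g)
    (hα : 0 ≤ α) (hβ : 0 ≤ β) (hΦ : UB (fun _ => ball 0 R) Φ) (hG : UB (fun _ => ball 0 R) G)
    (hom : ∀ j y v (c : ℝ), 0 < c → G j (y, c • v) = c ^ p • G j (y, v)) :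
    ∃ N1 : ℕ, ∀ N, N1 ≤ N → ∃ T0 : ℕ, ∀ (S0 T : ℕ) (i : ℕ → ι) (x : ℕ → ℝ → E)
      (v : ℕ → ℝ → κ → E), T0 ≤ T →
      (∀ S, S0 ≤ S → S < T → ∀ τ ∈ Icc (0 : ℝ) 1, x S =ᶠ[𝓝 τ] (fun t => Φ (i S) (x (S + 1) t)) ∧
        v S =ᶠ[𝓝 τ] fun t j => fderiv ℝ (Φ (i S)) (x (S + 1) t) (v (S + 1) t j)) →
      (∀ τ ∈ Icc (0 : ℝ) 1, ContDiffAt ℝ ∞ (x T) τ ∧ ContDiffAt ℝ ∞ (v T) τ) →
      (∀ S, S0 ≤ S → S ≤ T → ∀ τ ∈ Icc (0 : ℝ) 1, ‖x S τ‖ ≤ K * Real.exp (-(2 * g * T))) →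
      (∀ j, ∀ τ ∈ Icc (0 : ℝ) 1,
        (1 ≤ j → ‖iteratedDeriv j (x T) τ‖ ≤ d j * Real.exp (α * T) * Real.exp (-(g * T)) ^ j) ∧
        ‖iteratedDeriv j (v T) τ‖ ≤ d j * Real.exp (α * T) * Real.exp (-(g * T)) ^ j) →
      ∀ S, S0 ≤ S → S ≤ T →
        (∀ τ ∈ Icc (0 : ℝ) 1, ContDiffAt ℝ ∞ (x S) τ ∧ ContDiffAt ℝ ∞ (v S) τ ∧
          ∀ j, 1 ≤ j → j ≤ N → ‖iteratedDeriv j (x S) τ‖ ≤ Real.exp (-(g * T))) ∧
        ∀ j, AP N (Real.exp (-(β * T))) fun t => G j (x S t, v S t) :=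
  clv K d (A := fun i y => cw E κ (fderiv ℝ (Φ i) y)) hR hg hα hβ hΦ (hΦ.fderiv.clm (cw E κ)) hG hom

end Crest.Agent.N221.NB
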