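import Crest.Agent.N221.NB.Defs
import Crest.Agent.N221.Fr.B1
import Crest.Agent.N221.Fr.Ri

/-! Row 221, block NB: `LiS` and `B1S`. -/

set_option autoImplicit false

open Set Metric Filter Topology
open scoped ContDiff

noncomputable section

namespace Crest.Agent.N221.NB

theorem liS' : LiS := by
  intro Z G _ _ _ _ _ _ X U z₀ hU hz hX hi
  obtain ⟨k, hk⟩ := (X z₀ : G →ₗ[ℝ] Z).exists_leftInverse_of_injective (LinearMap.ker_eq_bot.2 hi)
  obtain ⟨V, σ, h1, h2, h3, h4, h5⟩ := Fr.ri Z G G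
    (fun z => LinearMap.toContinuousLinearMap k ∘L X z) U z₀ hU hz (contDiffOn_const.clm_comp hX)
    fun g => ⟨g, LinearMap.congr_fun hk g⟩
  refine ⟨V, fun z => σ z ∘L LinearMap.toContinuousLinearMap k, h1, h2, h3,
    h4.clm_comp contDiffOn_const, fun z hz g => ?_⟩
  exact (LinearMap.injective_iff_surjective
    (f := (LinearMap.toContinuousLinearMap k ∘L X z).toLinearMap)).2
    (fun g => ⟨σ z g, h5 z hz g⟩) (h5 z hz _)

theorem b1S : B1S := by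
  intro Z GI Gs Gu _ _ _ _ _ _ _ _ _ _ _ _ Ω U ι ζ ν Dm J z₀ A r hF hJ hz hr hA hA2 hinv
  obtain ⟨V₁, ρ, a1, a2, a3, a4, a5⟩ := liS' Z GI ι U z₀ hF.opn hz hF.sι
    ((injective_iff_map_eq_zero _).2 fun g hg => hF.nd z₀ hz g fun w => by simp [hg])
  obtain ⟨V, σ, b1, b2, b3, b4, b5⟩ := liS' Z Gs ζ V₁ z₀ a1 a2 (hF.sζ.mono a3) (hF.iζ z₀ hz)
  have hD := hJ.op.mem_nhds (hJ.zero z₀ hz)
  have hc : ContinuousAt (fun w : GI => (z₀, w)) 0 := by fun_prop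
  have hJc : ContinuousAt (fun w : GI => J (z₀, w)) 0 :=
    (hJ.sm.contDiffAt hD).continuousAt.comp (f := fun w : GI => (z₀, w)) hc
  obtain ⟨r₁, hr₁, h1⟩ := Metric.eventually_nhds_iff_ball.1 ((hc.eventually hD).and
    (hJc.eventually (b1.mem_nhds (by simpa only [hJ.init z₀ hz] using b2))))
  have hs : ball (0 : GI) (min r₁ r) ⊆ ball 0 r₁ := ball_subset_ball (min_le_left _ _)
  have hj : ContDiffOn ℝ ∞ (fun w : GI => J (z₀, w)) (ball 0 (min r₁ r)) :=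
    hJ.sm.comp (by fun_prop) fun w hw => (h1 w (hs hw)).1
  have hV : MapsTo (fun w : GI => J (z₀, w)) (ball 0 (min r₁ r)) V := fun w hw => (h1 w (hs hw)).2
  have sι := (hF.sι.mono (b3.trans a3)).comp hj hV
  have sζ := (hF.sζ.mono (b3.trans a3)).comp hj hV
  have sρ := (a4.mono b3).comp hj hV
  have sσ := b4.comp hj hV
  obtain ⟨b, hb⟩ := exists_ne (0 : Gs)
  let κ : GI → GI →L[ℝ] Z := fun w =>
    ι (J (z₀, w)) - ζ (J (z₀, w)) ∘L σ (J (z₀, w)) ∘L ι (J (z₀, w))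
  have hκ : ∀ w ∈ ball (0 : GI) (min r₁ r), ∀ v, κ w v = 0 ↔ Tan ι ζ J z₀ w v := fun w hw v =>
    ⟨fun h => ⟨_, sub_eq_zero.1 h⟩, fun ⟨g, hg⟩ => by
      show ι _ v - ζ _ (σ _ (ι _ v)) = 0
      rw [hg, b5 _ (hV hw), sub_self]⟩
  have hβ : ∀ w ∈ ball (0 : GI) (min r₁ r),
      ι (J (z₀, w)) (ρ (J (z₀, w)) (ζ (J (z₀, w)) b)) = ζ (J (z₀, w)) b := fun w hw => by
    obtain ⟨g, hg⟩ := hF.sub _ (a3 (b3 (hV hw))) b
    rw [hg, a5 _ (b3 (hV hw))]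
  have h0 : (0 : GI) ∈ ball (0 : GI) (min r₁ r) := mem_ball_self (lt_min hr₁ hr)
  let e := (LinearEquiv.ofInjectiveEndo (A : GI →ₗ[ℝ] GI) hA).toContinuousLinearEquiv
  have hn : ‖A‖ ≤ 1 / 2 := A.opNorm_le_bound (by norm_num) hA2
  obtain ⟨N, a, k1, k2⟩ := Fr.b1 A (e.symm : GI →L[ℝ] GI)
    (ContinuousLinearMap.ext fun v => e.apply_symm_apply v) (C := 1) (θ := 1 / 2) (by norm_num)
    (by norm_num) (fun n => by
      rcases _root_.Nat.eq_zero_or_pos n with rfl | h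
      · rw [pow_zero, pow_zero, one_mul]
        exact ContinuousLinearMap.norm_id_le
      · rw [one_mul]
        exact (norm_pow_le' A h).trans (pow_le_pow_left₀ (norm_nonneg _) hn n))
    (lt_min hr₁ hr) (κ := κ) (sι.sub (sζ.clm_comp (sσ.clm_comp sι))).continuousOn
    (β := fun w => ρ (J (z₀, w)) (ζ (J (z₀, w)) b))
    (sρ.clm_apply (sζ.clm_apply contDiffOn_const))
    (fun h => hb (hF.iζ _ (a3 (b3 (hV h0))) (by rw [← hβ 0 h0, h, map_zero, map_zero])))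
    (fun w hw => (hκ w hw _).2 ⟨b, hβ w hw⟩)
    (fun w hw hw' v h => (hκ w hw v).2 (hinv w v
      ((mem_ball_zero_iff.1 hw).trans_le (min_le_right _ _)) ((hκ _ hw' _).1 h))) one_pos
  refine ⟨N, Fr.pw N a, ⟨fun i => _root_.Nat.casesOn i 0 a, fun τ => ?_⟩, Fr.pw_zero N a, k1,
    fun τ hτ => ⟨(mem_ball_zero_iff.1 (k2 τ hτ).2.1).trans_le (min_le_right _ _), ?_⟩⟩
  · rw [Finset.sum_range_succ']
    simp [Fr.pw]
  · rw [(Fr.hasDerivAt_pw N a τ).deriv]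
    exact (hκ _ (k2 τ hτ).2.1 _).1 (k2 τ hτ).2.2

end Crest.Agent.N221.NB
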