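import Crest.Agent.N221.NB.NatS

/-! Row 221, block NB: `famS : FamS` (the flow of `ν g₀` keeps polynomial developments). -/

set_option autoImplicit false
set_option linter.unusedSectionVars false
set_option maxSynthPendingDepth 3

open Set Metric Filter Topology
open scoped ContDiff

noncomputable section

namespace Crest.Agent.N221.NB

open Fr

namespace Dev

variable {Z G G' H : Type} [NormedAddCommGroup Z] [NormedSpace ℝ Z] [NormedAddCommGroup G]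
  [NormedSpace ℝ G] [NormedAddCommGroup G'] [NormedSpace ℝ G'] [NormedAddCommGroup H]
  [NormedSpace ℝ H]

/-- polynomial with `N` coefficients -/
def pq (N : ℕ) (a : ℕ → G) (τ : ℝ) : G := ∑ i ∈ Finset.range N, τ ^ i • a i

theorem hasDerivAt_pq (N : ℕ) (a : ℕ → G) (τ : ℝ) :
    HasDerivAt (pq (N + 1) a) (pq N (fun i => ((i : ℝ) + 1) • a (i + 1)) τ) τ := by
  have h : pq (N + 1) a = fun τ => ∑ i ∈ Finset.range N, τ ^ (i + 1) • a (i + 1) + a 0 := by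
    funext τ
    simp [pq, Finset.sum_range_succ']
  rw [h]
  refine (HasDerivAt.fun_sum fun i _ => ?_).add_const _
  convert (hasDerivAt_pow (i + 1) τ).smul_const (a (i + 1)) using 1
  simp [smul_smul, mul_comm]

theorem contDiff_pq (N : ℕ) (a : ℕ → G) : ContDiff ℝ ∞ (pq N a) :=
  ContDiff.sum fun i _ => (contDiff_id.pow i).smul contDiff_const

theorem pq_zero (N : ℕ) (a : ℕ → G) : pq (N + 1) a 0 = a 0 := by
  simp [pq, Finset.sum_range_succ']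

/-- primitive of a polynomial with a given value at `0` -/
theorem exists_prim (N : ℕ) (b : ℕ → G) (g₀ : G) : ∃ a : ℕ → G, pq (N + 1) a 0 = g₀ ∧
    ∀ τ, HasDerivAt (pq (N + 1) a) (pq N b τ) τ := by
  refine ⟨fun i => _root_.Nat.casesOn i g₀ fun i => ((i : ℝ) + 1)⁻¹ • b i, pq_zero _ _, fun τ => ?_⟩
  convert hasDerivAt_pq N _ τ using 2
  funext i
  show b i = ((i : ℝ) + 1) • ((i : ℝ) + 1)⁻¹ • b i
  rw [smul_smul, mul_inv_cancel₀ (by positivity), one_smul]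

/-- **POLY**: a function related to a polynomial is a polynomial -/
theorem poly_of_rel {θ : Z → G →L[ℝ] Z →L[ℝ] ℝ} {θ' : Z → G' →L[ℝ] Z →L[ℝ] ℝ}
    {ζ : Z → H →L[ℝ] Z} {c : ℝ → Z} {τ₁ : ℝ} (h₁ : 0 < τ₁)
    (B : ∀ t ∈ Icc 0 τ₁, Bas θ ζ (c t)) (B' : ∀ t ∈ Icc 0 τ₁, Bas θ' ζ (c t))
    (hζ : ∀ t ∈ Icc 0 τ₁, DifferentiableAt ℝ ζ (c t))
    (hc : ∀ t ∈ Icc 0 τ₁, ∃ β, HasDerivAt c (ζ (c t) β) t)
    (hi : ∀ t ∈ Icc 0 τ₁, Function.Injective (θ' (c t))) (N : ℕ) :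
    ∀ (a : ℕ → G) (g' : ℝ → G'), ContDiffOn ℝ ∞ g' (Icc 0 τ₁) →
      (∀ t ∈ Icc 0 τ₁, θ (c t) (pq N a t) = θ' (c t) (g' t)) →
      ∃ b : ℕ → G', ∀ t ∈ Icc 0 τ₁, g' t = pq N b t := by
  have hu : UniqueDiffOn ℝ (Icc 0 τ₁) := uniqueDiffOn_Icc h₁
  induction N with
  | zero =>
    refine fun a g' _ he => ⟨fun _ => 0, fun t ht => hi t ht ?_⟩
    rw [← he t ht]
    simp [pq]
  | succ N ih =>
    intro a g' hg he
    obtain ⟨hd, hs⟩ := (contDiffOn_infty_iff_derivWithin hu).1 hg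
    obtain ⟨b, hb⟩ := ih _ _ hs fun t ht => by
      obtain ⟨β, hβ⟩ := hc t ht
      exact step (B t ht) (B' t ht) (hζ t ht) (hu t ht) ht hβ.hasDerivWithinAt
        (hasDerivAt_pq N a t).hasDerivWithinAt (hd t ht).hasDerivWithinAt he
    obtain ⟨b', h0, hb'⟩ := exists_prim N b (g' 0)
    refine ⟨b', eq_of_has_deriv_right_eq (f' := pq N b) (fun t ht => ?_)
      (fun t _ => (hb' t).hasDerivWithinAt) hg.continuousOn
      (contDiff_pq _ _).continuous.continuousOn h0.symm⟩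
    have ht' := Ico_subset_Icc_self ht
    rw [← hb t ht']
    exact (hd t ht').hasDerivWithinAt.mono_of_mem_nhdsWithin (Icc_mem_nhdsGE_of_mem ht)

/-- the joint flow preserves the forms with vanishing Lie derivative -/
theorem jf_lie {X : Z → G →L[ℝ] Z} {U : Set Z} {D : Set (Z × G)} {J : Z × G → Z}
    (hU : IsOpen U) (hX : ContDiffOn ℝ 1 X U) (hJ : JF X U D J)
    {θ : Z → H →L[ℝ] Z →L[ℝ] ℝ} (hθ : ∀ z ∈ U, DifferentiableAt ℝ θ z)
    (hL : ∀ z ∈ U, ∀ a b v, fderiv ℝ θ z (X z b) a v + θ z a (fderiv ℝ X z v b) = 0)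
    {p : Z × G} (hp : p ∈ D) (a : H) (v : Z) :
    θ (J p) a (fderiv ℝ J p (v, 0)) = θ p.1 a v := by
  obtain ⟨y, w⟩ := p
  have hm : ∀ t ∈ Icc (0 : ℝ) 1, (y, t • w) ∈ D := fun t ht => hJ.star _ hp t ht
  have hd : ∀ t ∈ Icc (0 : ℝ) 1, HasDerivAt
      (fun t : ℝ => θ (J (y, t • w)) a (fderiv ℝ J (y, t • w) (v, 0))) 0 t := fun t ht => by
    have hz := hJ.mem _ (hm t ht)
    have e0 : HasDerivAt (fun t : ℝ => θ (J (y, t • w)))
        (fderiv ℝ θ (J (y, t • w)) (X (J (y, t • w)) w)) t :=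
      (hθ _ hz).hasFDerivAt.comp_hasDerivAt t (jf_ray hJ (hm t ht))
    have e1 : HasDerivAt (fun t : ℝ => θ (J (y, t • w)) a)
        (fderiv ℝ θ (J (y, t • w)) (X (J (y, t • w)) w) a) t := by
      simpa using e0.clm_apply (hasDerivAt_const t a)
    exact (e1.clm_apply (jf_var hU hX hJ (hm t ht) v)).congr_deriv (hL _ hz _ _ _)
  have := constant_of_has_deriv_right_zero (a := 0) (b := 1)
    (fun t ht => (hd t ht).continuousAt.continuousWithinAt)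
    (fun t ht => (hd t ⟨ht.1, ht.2.le⟩).hasDerivWithinAt) 1 ⟨zero_le_one, le_rfl⟩
  simpa [hJ.init y (hJ.mem1 _ hp), jf_init_der hU hJ (hJ.mem1 _ hp)] using this

/-- the field `ν g₀` as a frame of rank one -/
def fld (ν : Z → G →L[ℝ] Z) (g₀ : G) (z : Z) : ℝ →L[ℝ] Z :=
  ContinuousLinearMap.smulRightL ℝ ℝ Z (ContinuousLinearMap.id ℝ ℝ) (ν z g₀)

@[simp] theorem fld_apply (ν : Z → G →L[ℝ] Z) (g₀ : G) (z : Z) (s : ℝ) :
    fld ν g₀ z s = s • ν z g₀ := rfl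

theorem contDiffOn_fld {ν : Z → G →L[ℝ] Z} {U : Set Z} (h : ContDiffOn ℝ ∞ ν U) (g₀ : G) :
    ContDiffOn ℝ ∞ (fld ν g₀) U :=
  (ContinuousLinearMap.smulRightL ℝ ℝ Z (ContinuousLinearMap.id ℝ ℝ)).contDiff.comp_contDiffOn
    (h.clm_apply contDiffOn_const)

theorem fderiv_fld {ν : Z → G →L[ℝ] Z} {z : Z} (h : DifferentiableAt ℝ ν z) (g₀ : G) (v : Z)
    (s : ℝ) : fderiv ℝ (fld ν g₀) z v s = s • fderiv ℝ ν z v g₀ := by
  have e : HasFDerivAt (fld ν g₀) _ z :=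
    (ContinuousLinearMap.smulRightL ℝ ℝ Z (ContinuousLinearMap.id ℝ ℝ)).hasFDerivAt.comp z
      (h.hasFDerivAt.clm_apply (hasFDerivAt_const g₀ z))
  rw [e.fderiv]
  simp

end Dev

open Dev

theorem famS : FamS := by
  intro Z GI Gs Gu _ _ _ _ _ _ _ _ _ _ _ _ Ω U ι ζ ν Dm J z₀ g₀ r F hJ hz hr
  have : CompleteSpace Z := FiniteDimensional.complete ℝ Z
  have Fi := F.fio F.opn Subset.rfl
  have da : ∀ {G : Type} [NormedAddCommGroup G] [NormedSpace ℝ G] {e : Z → G →L[ℝ] Z},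
      ContDiffOn ℝ ∞ e U → ∀ z ∈ U, DifferentiableAt ℝ e z := fun he z hz =>
    (he.contDiffAt (F.opn.mem_nhds hz)).differentiableAt (by simp)
  have hX := contDiffOn_fld F.sν g₀
  have hX1 : ContDiffOn ℝ 1 (fld ν g₀) U := hX.of_le (by simp)
  obtain ⟨Du, Ju, hJu⟩ := jf Z ℝ (fld ν g₀) U F.opn hX fun z hz s s' => by
    rw [fderiv_fld (da F.sν z hz), fderiv_fld (da F.sν z hz)]
    simp only [fld_apply, map_smul, smul_apply, smul_smul, mul_comm]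
  have comm : ∀ p ∈ Du, ∀ b, fderiv ℝ Ju p (ζ p.1 b, 0) = ζ (Ju p) b := fun p hp b =>
    jf_comm F.opn hX1 hJu (da F.sζ) (fun z hz s b => by
      rw [fderiv_fld (da F.sν z hz), F.cν z hz]
      simp) hp b
  have lie : ∀ p ∈ Du, ∀ b v, Ω (ζ (Ju p) b) (fderiv ℝ Ju p (v, 0)) = Ω (ζ p.1 b) v :=
    fun p hp b v => jf_lie (θ := th Ω ζ) F.opn hX1 hJu (fun z hz => diff_th (da F.sζ z hz))
      (fun z hz a s v => by
        rw [fderiv_th (da F.sζ z hz), fderiv_fld (da F.sν z hz), th_apply, fld_apply]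
        simp only [map_smul, smul_apply]
        rw [← F.cν z hz, F.bν z hz, F.skew]
        simp) hp b v
  have dψ : ∀ y t, (y, t) ∈ Du → HasFDerivAt (fun y => Ju (y, t))
      (fderiv ℝ Ju (y, t) ∘L ContinuousLinearMap.inl ℝ Z ℝ) y := fun y t h =>
    ((jf_at hJu h).differentiableAt (by simp)).hasFDerivAt.comp y (f := fun y : Z => (y, t))
      (hasFDerivAt_prodMk_left y t)
  obtain ⟨V₁, ρ, hV₁, hz₁, -, hρ, hρι⟩ := exists_li F.opn hz F.sι (Fi.inj hz)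
  obtain ⟨δ', hδ', hsub'⟩ : ∃ δ' > 0, closedBall ((z₀, 0) : Z × GI) δ' ⊆ Dm :=
    nhds_basis_closedBall.mem_iff.1 (hJ.op.mem_nhds (hJ.zero _ hz))
  have h00 : (z₀, (0 : ℝ)) ∈ Du := hJu.zero _ hz
  have hJ0 := jf_at hJu h00
  obtain ⟨δ, hδ, hsub⟩ : ∃ δ > 0, closedBall ((z₀, 0) : Z × ℝ) δ ⊆
      {k | k ∈ Du ∧ Ju k ∈ V₁ ∩ ball z₀ (min r δ') ∧
        IsUnit (fderiv ℝ Ju k ∘L ContinuousLinearMap.inl ℝ Z ℝ)} := by
    refine nhds_basis_closedBall.mem_iff.1 ((hJu.op.eventually_mem h00).and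
      ((hJ0.continuousAt.eventually ((hV₁.inter isOpen_ball).mem_nhds ?_)).and ?_))
    · rw [hJu.init _ hz]
      exact ⟨hz₁, mem_ball_self (lt_min hr hδ')⟩
    · have c1 : ContinuousAt (fun k => fderiv ℝ Ju k ∘L ContinuousLinearMap.inl ℝ Z ℝ) (z₀, 0) :=
        (hJ0.fderiv_right (m := 0) (by simp)).continuousAt.clm_comp continuousAt_const
      refine c1.eventually (Units.isOpen.mem_nhds ?_)
      have : fderiv ℝ Ju (z₀, 0) ∘L ContinuousLinearMap.inl ℝ Z ℝ = 1 :=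
        ContinuousLinearMap.ext fun v => jf_init_der F.opn hJu hz v
      show IsUnit (fderiv ℝ Ju (z₀, 0) ∘L ContinuousLinearMap.inl ℝ Z ℝ)
      rw [this]
      exact isUnit_one
  have box : ∀ y ∈ closedBall z₀ δ, ∀ t ∈ Icc 0 δ, (y, t) ∈ Du ∧ Ju (y, t) ∈ V₁ ∩
      ball z₀ (min r δ') ∧ IsUnit (fderiv ℝ Ju (y, t) ∘L ContinuousLinearMap.inl ℝ Z ℝ) :=
    fun y hy t ht => hsub (by
      rw [← closedBall_prod_same]
      exact ⟨hy, mem_closedBall_zero_iff.2 (by rw [Real.norm_of_nonneg ht.1]; exact ht.2)⟩)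
  have flow : ∀ y t, (y, t) ∈ Du → HasDerivAt (fun t => Ju (y, t)) (ν (Ju (y, t)) g₀) t :=
    fun y t h => by
      simpa using jf_curve hJu (w := fun t => t) (s := univ) h (hasDerivWithinAt_id t univ)
  have hz0 : z₀ ∈ closedBall z₀ δ := mem_closedBall_self hδ.le
  have KD : closedBall z₀ δ ×ˢ Icc 0 δ ⊆ Du := fun k hk => (box k.1 hk.1 k.2 hk.2).1
  have Kc : Convex ℝ (closedBall z₀ δ ×ˢ Icc (0 : ℝ) δ) := (convex_closedBall _ _).prod (convex_Icc _ _)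
  have Kk : IsCompact (closedBall z₀ δ ×ˢ Icc (0 : ℝ) δ) := (isCompact_closedBall _ _).prod isCompact_Icc
  obtain ⟨L₁, hL₁⟩ := (hJu.sm.mono KD).exists_lipschitzOnWith (by simp) Kc Kk
  obtain ⟨L₂, hL₂⟩ := (((F.sν.comp hJu.sm hJu.mem).clm_apply
    (contDiffOn_const (c := g₀))).mono KD).exists_lipschitzOnWith (by simp) Kc Kk
  have dt : ∀ (y : Z) (t t' : ℝ), dist (y, t') (y, t) = |t' - t| := fun y t t' => by
    simp [Prod.dist_eq, Real.dist_eq]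
  have second : ∀ y ∈ closedBall z₀ δ, ∀ t ∈ Icc 0 δ, ∀ t' ∈ Icc 0 δ,
      ‖Ju (y, t') - Ju (y, t) - (t' - t) • ν (Ju (y, t)) g₀‖ ≤ L₂ * (t' - t) ^ 2 := by
    intro y hy t ht t' ht'
    have sub : uIcc t t' ⊆ Icc 0 δ := uIcc_subset_Icc ht ht'
    have := (convex_uIcc t t').norm_image_sub_le_of_norm_hasDerivWithin_le
      (f := fun s => Ju (y, s) - (s - t) • ν (Ju (y, t)) g₀)
      (f' := fun s => ν (Ju (y, s)) g₀ - ν (Ju (y, t)) g₀) (C := L₂ * |t' - t|)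
      (fun s hs => by
        have := (flow y s (box y hy s (sub hs)).1).sub
          (((hasDerivAt_id s).sub_const t).smul_const (ν (Ju (y, t)) g₀))
        rw [one_smul] at this
        exact this.hasDerivWithinAt)
      (fun s hs => by
        have := hL₂.dist_le_mul (y, s) ⟨hy, sub hs⟩ (y, t) ⟨hy, ht⟩
        rw [dist_eq_norm, dt] at this
        exact this.trans (mul_le_mul_of_nonneg_left (abs_sub_left_of_mem_uIcc hs) L₂.2))
      left_mem_uIcc right_mem_uIcc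
    rw [sub_self, zero_smul, sub_zero, Real.norm_eq_abs, mul_assoc, abs_mul_abs_self, ← sq,
      sub_right_comm] at this
    exact this
  refine ⟨δ, fun t => Ju (z₀, t), hδ, hJu.init _ hz, ?_,
    fun t ht => ball_subset_ball (min_le_left _ _) (box z₀ hz0 t ht).2.1.2, ?_⟩
  · simpa [hJu.init _ hz] using flow z₀ 0 h00
  rintro N p ⟨cf, hp⟩ hp0 hT
  obtain rfl : p = pq (N + 1) cf := funext hp
  set p := pq (N + 1) cf with hpd
  set p₁ := pq N fun i => ((i : ℝ) + 1) • cf (i + 1) with hp₁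
  have hp' : ∀ τ, HasDerivAt p (p₁ τ) τ := hasDerivAt_pq N cf
  set c : ℝ → Z := fun τ => J (z₀, p τ) with hc
  have cpair : ContDiff ℝ ∞ fun τ => ((z₀, p τ) : Z × GI) := contDiff_const.prodMk (contDiff_pq _ _)
  have c0 : c 0 = z₀ := by simp only [hc, hp0]; exact hJ.init _ hz
  have cs : ∀ τ, (z₀, p τ) ∈ Dm → ContDiffAt ℝ ∞ c τ := fun τ h =>
    (jf_at hJ h).comp (f := fun τ => ((z₀, p τ) : Z × GI)) τ cpair.contDiffAt
  have h0D : (z₀, p 0) ∈ Dm := by rw [hp0]; exact hJ.zero _ hz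
  obtain ⟨τ₁, hτ₁, H₁⟩ : ∃ τ₁ > 0, Icc 0 τ₁ ⊆ {τ | Tan ι ζ J z₀ (p τ) (deriv p τ) ∧
      (z₀, p τ) ∈ Dm ∧ c τ ∈ closedBall z₀ δ} :=
    (nhdsGE_basis_Icc (a := (0 : ℝ))).mem_iff.1 (hT.and (mem_nhdsWithin_of_mem_nhds
      ((cpair.continuous.continuousAt.eventually (hJ.op.mem_nhds h0D)).and
        ((cs 0 h0D).continuousAt.eventually (by rw [c0]; exact closedBall_mem_nhds _ hδ)))))
  have cU : ∀ τ ∈ Icc 0 τ₁, c τ ∈ U := fun τ hτ => hJ.mem _ (H₁ hτ).2.1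
  have dc : ∀ τ ∈ Icc 0 τ₁, HasDerivAt c (ι (c τ) (p₁ τ)) τ := fun τ hτ =>
    hasDerivWithinAt_univ.1 (jf_curve hJ (H₁ hτ).2.1 (hp' τ).hasDerivWithinAt)
  have tan : ∀ τ ∈ Icc 0 τ₁, ∃ β, ι (c τ) (p₁ τ) = ζ (c τ) β := fun τ hτ => by
    have := (H₁ hτ).1
    rwa [(hp' τ).deriv] at this
  set Q : ℝ × ℝ → GI := fun q =>
    ρ (Ju (c q.2, q.1)) (fderiv ℝ Ju (c q.2, q.1) (ι (c q.2) (p₁ q.2), 0)) with hQ
  have Qs : ContDiffOn ℝ ∞ Q (Icc 0 δ ×ˢ Icc 0 τ₁) := fun q hq => by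
    have b := box _ (H₁ hq.2).2.2 _ hq.1
    have a1 : ContDiffAt ℝ ∞ (fun q : ℝ × ℝ => c q.2) q :=
      (cs _ (H₁ hq.2).2.1).comp q contDiffAt_snd
    have a2 : ContDiffAt ℝ ∞ (fun q : ℝ × ℝ => (c q.2, q.1)) q := a1.prodMk contDiffAt_fst
    have a3 : ContDiffAt ℝ ∞ (fun q : ℝ × ℝ => ρ (Ju (c q.2, q.1))) q :=
      (hρ.contDiffAt (hV₁.mem_nhds b.2.1.1)).comp (f := fun q : ℝ × ℝ => Ju (c q.2, q.1)) q
        ((jf_at hJu b.1).comp (f := fun q : ℝ × ℝ => (c q.2, q.1)) q a2)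
    have a4 : ContDiffAt ℝ ∞ (fun q : ℝ × ℝ => fderiv ℝ Ju (c q.2, q.1)) q :=
      ((jf_at hJu b.1).fderiv_right (m := ∞) (by simp)).comp
        (f := fun q : ℝ × ℝ => (c q.2, q.1)) q a2
    have a5 : ContDiffAt ℝ ∞ (fun q : ℝ × ℝ => ι (c q.2) (p₁ q.2)) q :=
      ((Fi.at (cU _ hq.2)).comp (f := fun q : ℝ × ℝ => c q.2) q a1).clm_apply
        ((contDiff_pq _ _).contDiffAt.comp q contDiffAt_snd)
    exact (a3.clm_apply (a4.clm_apply (a5.prodMk contDiffAt_const))).contDiffWithinAt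
  have ιQ : ∀ t ∈ Icc 0 δ, ∀ τ ∈ Icc 0 τ₁, ι (Ju (c τ, t)) (Q (t, τ)) =
      fderiv ℝ Ju (c τ, t) (ι (c τ) (p₁ τ), 0) := fun t ht τ hτ => by
    have b := box _ (H₁ hτ).2.2 _ ht
    obtain ⟨β, hβ⟩ := tan τ hτ
    obtain ⟨g', hg'⟩ := F.sub _ (hJu.mem _ b.1) β
    simp only [hQ]
    rw [hβ, comm _ b.1, hg', hρι _ b.2.1.1]
  have ex : ∀ t ∈ Icc 0 δ, ∃ w : ℝ → GI, Poly N w ∧ w 0 = 0 ∧
      ∀ τ ∈ Icc 0 τ₁, HasDerivAt w (Q (t, τ)) τ := fun t ht => by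
    have b := fun τ (hτ : τ ∈ Icc 0 τ₁) => box _ (H₁ hτ).2.2 _ ht
    obtain ⟨b₁, hb₁⟩ := poly_of_rel (θ := th Ω ι) (θ' := pth Ω ι fun y => Ju (y, t)) (ζ := ζ)
      (c := c) hτ₁
      (fun τ hτ => bas_th (da F.sι _ (cU τ hτ))
        ((F.opn.eventually_mem (cU τ hτ)).mono fun y hy a b => by
          obtain ⟨g', hg'⟩ := F.sub y hy b
          rw [hg', F.iso y hy])
        fun a b v => by
          obtain ⟨g', hg'⟩ := F.sub _ (cU τ hτ) b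
          rw [hg', F.bι _ (cU τ hτ)])
      (fun τ hτ => bas_pth (((jf_at hJu (b τ hτ).1).of_le two_le').comp
          (f := fun y : Z => (y, t)) _ (by fun_prop)) (da F.sι _ (hJu.mem _ (b τ hτ).1))
        (by
          filter_upwards [(show ContinuousAt (fun y : Z => (y, t)) (c τ) by fun_prop).eventually
            (hJu.op.mem_nhds (b τ hτ).1)] with y hy a b
          obtain ⟨g', hg'⟩ := F.sub _ (hJu.mem _ hy) b
          rw [(dψ y t hy).fderiv]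
          show Ω _ (fderiv ℝ Ju (y, t) (ζ y b, 0)) = 0
          rw [comm _ hy, hg', F.iso _ (hJu.mem _ hy)])
        fun a b' v => by
          obtain ⟨g', hg'⟩ := F.sub _ (hJu.mem _ (b τ hτ).1) b'
          have e : fderiv ℝ (fun y => Ju (y, t)) (c τ) (ζ (c τ) b') = ι (Ju (c τ, t)) g' := by
            rw [(dψ _ t (b τ hτ).1).fderiv, ← hg']
            exact comm _ (b τ hτ).1 b'
          rw [e, F.bι _ (hJu.mem _ (b τ hτ).1)])
      (fun τ hτ => da F.sζ _ (cU τ hτ))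
      (fun τ hτ => by
        obtain ⟨β, hβ⟩ := tan τ hτ
        exact ⟨β, hβ ▸ dc τ hτ⟩)
      (fun τ hτ => Fi.inj_pth (hJu.mem _ (b τ hτ).1) fun v => by
        obtain ⟨u, hu⟩ := (b τ hτ).2.2
        refine ⟨(↑u⁻¹ : Z →L[ℝ] Z) v, fun x => ?_⟩
        rw [(dψ _ t (b τ hτ).1).fderiv, ← hu, ← mul_apply_eq_comp, u.mul_inv]
        rfl)
      N _ (fun τ => Q (t, τ)) (Qs.comp (by fun_prop) fun τ hτ => ⟨ht, hτ⟩)
      fun τ hτ => ContinuousLinearMap.ext fun v => by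
        obtain ⟨β, hβ⟩ := tan τ hτ
        rw [th_apply, pth_apply, ιQ t ht τ hτ, ← hp₁, hβ, comm _ (b τ hτ).1,
          (dψ _ t (b τ hτ).1).fderiv]
        exact (lie _ (b τ hτ).1 β v).symm
    obtain ⟨a, a0, ha⟩ := exists_prim N b₁ 0
    exact ⟨pq (N + 1) a, ⟨a, fun _ => rfl⟩, a0, fun τ hτ => hb₁ τ hτ ▸ ha τ⟩
  have h0δ : (0 : ℝ) ∈ Icc 0 δ := left_mem_Icc.2 hδ.le
  obtain ⟨w, hw0, hw⟩ : ∃ w : ℝ → ℝ → GI, w 0 = p ∧ ∀ t ∈ Icc 0 δ, Poly N (w t) ∧ w t 0 = 0 ∧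
      ∀ τ ∈ Icc 0 τ₁, HasDerivAt (w t) (Q (t, τ)) τ := by
    classical
    choose! w hw using ex
    refine ⟨Function.update w 0 p, by simp, fun t ht => ?_⟩
    by_cases h : t = 0
    · subst h
      rw [Function.update_self]
      refine ⟨⟨cf, fun _ => rfl⟩, hp0, fun τ hτ => ?_⟩
      have e := ιQ 0 h0δ τ hτ
      rw [jf_init_der F.opn hJu (cU τ hτ), hJu.init _ (cU τ hτ)] at e
      rw [Fi.inj (cU τ hτ) e]
      exact hp' τ
    · rw [Function.update_of_ne h]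
      exact hw t ht
  have Kc' : Convex ℝ (Icc (0 : ℝ) δ ×ˢ Icc (0 : ℝ) τ₁) := (convex_Icc _ _).prod (convex_Icc _ _)
  have Kk' : IsCompact (Icc (0 : ℝ) δ ×ˢ Icc (0 : ℝ) τ₁) := isCompact_Icc.prod isCompact_Icc
  obtain ⟨L₃, hL₃⟩ := Qs.exists_lipschitzOnWith (by simp) Kc' Kk'
  obtain ⟨M, hM⟩ := Kk'.exists_bound_of_continuousOn Qs.continuousOn
  have hM0 : 0 ≤ M := (norm_nonneg _).trans (hM (0, 0) ⟨h0δ, left_mem_Icc.2 hτ₁.le⟩)
  have hm : 0 < min r δ' := lt_min hr hδ'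
  set τ₀ : ℝ := min (min τ₁ 1) (min r δ' / (M + 1)) with hτ₀
  have τ₀p : 0 < τ₀ := lt_min (lt_min hτ₁ one_pos) (by positivity)
  have τ₀1 : τ₀ ≤ 1 := (min_le_left _ _).trans (min_le_right _ _)
  have sub : Icc 0 τ₀ ⊆ Icc 0 τ₁ := Icc_subset_Icc_right ((min_le_left _ _).trans (min_le_left _ _))
  have wn : ∀ t ∈ Icc 0 δ, ∀ τ ∈ Icc 0 τ₀, ‖w t τ‖ < min r δ' := fun t ht τ hτ => by
    have := norm_image_sub_le_of_norm_deriv_le_segment' (f := w t) (f' := fun τ => Q (t, τ))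
      (C := M) (fun τ hτ => ((hw t ht).2.2 τ hτ).hasDerivWithinAt)
      (fun τ hτ => hM _ ⟨ht, Ico_subset_Icc_self hτ⟩) τ (sub hτ)
    rw [(hw t ht).2.1, sub_zero, sub_zero] at this
    have h2 : τ * (M + 1) ≤ min r δ' :=
      (le_div_iff₀ (by positivity)).1 (hτ.2.trans (min_le_right _ _))
    rcases hτ.1.eq_or_lt with h | h
    · rw [← h, (hw t ht).2.1, norm_zero]; exact hm
    · nlinarith
  have dev : ∀ t ∈ Icc 0 δ, ∀ τ ∈ Icc 0 τ₀, Ju (c τ, t) = J (Ju (z₀, t), w t τ) := fun t ht => by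
    have := devS Z GI ι U Dm J (fun τ => Ju (c τ, t)) (w t) (fun τ => Q (t, τ)) τ₀ F.opn F.sι hJ
      ((Qs.continuousOn.comp (f := fun τ => (t, τ)) (by fun_prop) fun τ hτ => ⟨ht, sub hτ⟩))
      (hw t ht).2.1 fun τ hτ => by
        have b := box _ (H₁ (sub hτ)).2.2 _ ht
        refine ⟨hJu.mem _ b.1, hsub' ?_, ?_, (hw t ht).2.2 τ (sub hτ)⟩
        · rw [← closedBall_prod_same, c0]
          exact ⟨ball_subset_closedBall (ball_subset_ball (min_le_right _ _)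
            (box z₀ hz0 t ht).2.1.2),
            mem_closedBall_zero_iff.2 ((wn t ht τ hτ).le.trans (min_le_right _ _))⟩
        · rw [ιQ t ht τ (sub hτ)]
          exact (dψ _ t b.1).comp_hasDerivAt τ (dc τ (sub hτ))
    simpa only [c0] using this
  refine ⟨τ₀, L₁ + L₂ + L₃, w, τ₀p, τ₀1, hw0, fun t ht => ⟨(hw t ht).1, (hw t ht).2.1,
    fun τ hτ => ⟨(wn t ht τ hτ).trans_le (min_le_left _ _), ?_, fun t' ht' => ⟨?_, ?_⟩⟩⟩⟩
  · rw [← dev t ht τ hτ]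
    exact ball_subset_ball (min_le_left _ _) (box _ (H₁ (sub hτ)).2.2 _ ht).2.1.2
  · have h1 := hL₁.dist_le_mul (z₀, t') ⟨hz0, ht'⟩ (z₀, t) ⟨hz0, ht⟩
    rw [dist_eq_norm, dt] at h1
    have h2 := norm_image_sub_le_of_norm_deriv_le_segment' (f := fun τ => w t' τ - w t τ)
      (f' := fun τ => Q (t', τ) - Q (t, τ)) (C := L₃ * |t' - t|)
      (fun τ hτ => (((hw t' ht').2.2 τ hτ).sub ((hw t ht).2.2 τ hτ)).hasDerivWithinAt)
      (fun τ hτ => by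
        have := hL₃.dist_le_mul (t', τ) ⟨ht', Ico_subset_Icc_self hτ⟩ (t, τ)
          ⟨ht, Ico_subset_Icc_self hτ⟩
        simpa [dist_eq_norm] using this) τ (sub hτ)
    rw [(hw t ht).2.1, (hw t' ht').2.1, sub_zero, sub_zero, sub_zero] at h2
    have h3 : L₃ * |t' - t| * τ ≤ L₃ * |t' - t| :=
      mul_le_of_le_one_right (by positivity) (hτ.2.trans τ₀1)
    have a1 : 0 ≤ L₁ * |t' - t| := by positivity
    have a2 : 0 ≤ L₂ * |t' - t| := by positivity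
    have a3 : 0 ≤ L₃ * |t' - t| := by positivity
    rw [Prod.mk_sub_mk, Prod.norm_mk]
    exact max_le (by linarith) (by linarith)
  · rw [← dev t ht τ hτ, ← dev t' ht' τ hτ]
    refine (second _ (H₁ (sub hτ)).2.2 t ht t' ht').trans ?_
    have a1 : 0 ≤ L₁ * (t' - t) ^ 2 := by positivity
    have a3 : 0 ≤ L₃ * (t' - t) ^ 2 := by positivity
    linarith

end Crest.Agent.N221.NB
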