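import Crest.Agent.N221.NB.Prof

/-! Row 221, block NB: `TopS`. -/

set_option autoImplicit false

open Set Metric

namespace Crest.Agent.N221.NB

theorem topS : TopS := by
  intro Z GI _ _ _ _ _ _ Dm J z₀ r K N hD hJ hs
  haveI : CompleteSpace GI := FiniteDimensional.complete ℝ GI
  haveI : ProperSpace Z := FiniteDimensional.proper ℝ Z
  haveI : ProperSpace GI := FiniteDimensional.proper ℝ GI
  obtain ⟨L, hL, h1, h2⟩ := exists_compact_between
    ((isCompact_closedBall z₀ r).prod (isCompact_closedBall (0 : GI) r)) hD hs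
  obtain ⟨d, hd⟩ := prof hD hJ hL h2 isOpen_interior interior_subset N K
  exact ⟨d, fun ε y w h0 h1' hy hw h => hd y w ε hw h0 h1' fun τ hτ =>
    ⟨(h τ hτ).1, h1 ⟨hy, mem_closedBall_zero_iff.2 (h τ hτ).2⟩⟩⟩

end Crest.Agent.N221.NB
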