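import Crest.Agent.N221.NB.Glue
import Crest.Agent.N221.NB.Fam
import Crest.Agent.N221.NB.B1
import Crest.Agent.N221.NB.Top

/-! Row 221, block NB: the abstract no-branching theorem. -/

namespace Crest.Agent.N221.NB

theorem no : NoS := noS natS famS b1S topS

end Crest.Agent.N221.NB
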