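import Crest.Agent.N221.Ex.UB

/-! Row 221, block NB: two orbits of a chain of uniformly smooth maps, first order expansion. -/

set_option autoImplicit false

open Set Metric

namespace Crest.Agent.N221.NB

open Ex

theorem back {ι E : Type} [NormedAddCommGroup E] [NormedSpace ℝ E] [CompleteSpace E] {R : ℝ}
    {Φ : ι → E → E} (hΦ : UB (fun _ => ball 0 R) Φ) : ∃ c : ℝ, 1 ≤ c ∧
    ∀ (n : ℕ) (i : ℕ → ι) (x x' v : ℕ → E),
      (∀ j < n, ‖x j‖ ≤ R / 2 ∧ x (j + 1) = Φ (i j) (x j) ∧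
        (x' j ∈ ball (0 : E) R → x' (j + 1) = Φ (i j) (x' j)) ∧
        v (j + 1) = fderiv ℝ (Φ (i j)) (x j) (v j)) →
      c ^ n * ‖x' 0 - x 0‖ < R / 2 →
      ‖x' n - x n‖ ≤ c ^ n * ‖x' 0 - x 0‖ ∧ ‖v n‖ ≤ c ^ n * ‖v 0‖ ∧
        ‖x' n - x n - v n‖ ≤ c ^ n * ‖x' 0 - x 0 - v 0‖ + (c ^ n * ‖x' 0 - x 0‖) ^ 2 := by
  obtain ⟨c, hc, h⟩ := hΦ.taylor
  refine ⟨2 * c, by linarith, fun n => ?_⟩
  induction n with
  | zero => intro i x x' v _ _; simp
  | succ n ih =>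
    intro i x x' v hs hd
    have hd0 := norm_nonneg (x' 0 - x 0)
    have hp : 1 ≤ (2 * c) ^ n := one_le_pow₀ (by linarith)
    have hle : (2 * c) ^ n * ‖x' 0 - x 0‖ ≤ (2 * c) ^ (n + 1) * ‖x' 0 - x 0‖ :=
      mul_le_mul_of_nonneg_right (pow_le_pow_right₀ (by linarith) (by omega)) hd0
    obtain ⟨a1, a2, a3⟩ := ih i x x' v (fun j hj => hs j (by omega)) (hle.trans_lt hd)
    obtain ⟨b1, b2, b3, b4⟩ := hs n (by omega)
    have hR : 0 < R / 2 := lt_of_le_of_lt (by positivity) hd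
    have hx : x n ∈ ball (0 : E) R := mem_ball_zero_iff.2 (by linarith)
    have hx' : x' n ∈ ball (0 : E) R := mem_ball_zero_iff.2 (by
      have := norm_add_le (x n) (x' n - x n)
      rw [add_sub_cancel] at this; linarith)
    obtain ⟨c1, -, c3⟩ := (h (i n)).2 _ (convex_ball 0 R) Subset.rfl _ hx _ hx'
    have c4 : ∀ w, ‖fderiv ℝ (Φ (i n)) (x n) w‖ ≤ c * ‖w‖ := fun w =>
      (ContinuousLinearMap.le_opNorm _ _).trans
        (mul_le_mul_of_nonneg_right ((h (i n)).1 _ hx).2 (norm_nonneg _))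
    rw [b2, b3 hx', b4]
    set D := (2 * c) ^ n * ‖x' 0 - x 0‖ with hD
    have hD0 : 0 ≤ D := by positivity
    have e1 : (2 * c) ^ (n + 1) * ‖x' 0 - x 0‖ = 2 * c * D := by rw [hD]; ring
    refine ⟨?_, ?_, ?_⟩
    · rw [e1]; nlinarith [mul_le_mul_of_nonneg_left a1 (show 0 ≤ c by linarith)]
    · have := mul_le_mul_of_nonneg_left a2 (show 0 ≤ c by linarith)
      have h0 : 0 ≤ c * ((2 * c) ^ n * ‖v 0‖) := by positivity
      rw [pow_succ]; linarith [c4 (v n)]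
    · have e2 : Φ (i n) (x' n) - Φ (i n) (x n) - fderiv ℝ (Φ (i n)) (x n) (v n) =
          (Φ (i n) (x' n) - Φ (i n) (x n) - fderiv ℝ (Φ (i n)) (x n) (x' n - x n)) +
            fderiv ℝ (Φ (i n)) (x n) (x' n - x n - v n) := by
        rw [map_sub _ (x' n - x n)]; abel
      rw [e2, e1]
      refine (norm_add_le_of_le c3 (c4 _)).trans ?_
      have d1 : ‖x' n - x n‖ ^ 2 ≤ D ^ 2 := pow_le_pow_left₀ (norm_nonneg _) a1 2
      have d2 := mul_le_mul_of_nonneg_left d1 (show 0 ≤ c by linarith)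
      have d3 := mul_le_mul_of_nonneg_left a3 (show 0 ≤ c by linarith)
      have d4 : 0 ≤ c * ((2 * c) ^ n * ‖x' 0 - x 0 - v 0‖) := by positivity
      have d5 : 0 ≤ c * D ^ 2 := by positivity
      have d6 : c * D ^ 2 ≤ c * c * D ^ 2 := by nlinarith
      rw [pow_succ (2 * c) n]; nlinarith

end Crest.Agent.N221.NB
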