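import Crest.Agent.N221.Fr.Jf

/-! Row 221, no branching: the development lemma. Two families of one-forms `θ`, `θ'` killed by
`ζ` together with their differentials define the same covariant derivative along curves tangent
to `ζ`. -/

set_option autoImplicit false
set_option linter.unusedSectionVars false
set_option maxSynthPendingDepth 3

open Set Filter Topology
open scoped ContDiff

noncomputable section

namespace Crest.Agent.N221.NB.Dev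

variable {Z G G' H : Type*} [NormedAddCommGroup Z] [NormedSpace ℝ Z] [NormedAddCommGroup G]
  [NormedSpace ℝ G] [NormedAddCommGroup G'] [NormedSpace ℝ G'] [NormedAddCommGroup H]
  [NormedSpace ℝ H]

/-- `θ` is basic for `ζ` at `z`: differentiable, killed by `ζ` near `z`, and `d θ` is killed by
`ζ` at `z` -/
structure Bas (θ : Z → G →L[ℝ] Z →L[ℝ] ℝ) (ζ : Z → H →L[ℝ] Z) (z : Z) : Prop where
  diff : DifferentiableAt ℝ θ z
  kill : ∀ᶠ y in 𝓝 z, ∀ a h, θ y a (ζ y h) = 0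
  d : ∀ a h v, fderiv ℝ θ z (ζ z h) a v = fderiv ℝ θ z v a (ζ z h)

theorem Bas.der {θ : Z → G →L[ℝ] Z →L[ℝ] ℝ} {ζ : Z → H →L[ℝ] Z} {z : Z} (B : Bas θ ζ z)
    (hζ : DifferentiableAt ℝ ζ z) (a : G) (h : H) (v : Z) :
    fderiv ℝ θ z (ζ z h) a v = -θ z a (fderiv ℝ ζ z v h) := by
  have e1 := (B.diff.hasFDerivAt.clm_apply (hasFDerivAt_const a z)).clm_apply
    (hζ.hasFDerivAt.clm_apply (hasFDerivAt_const h z))
  have e2 : (fun _ => (0 : ℝ)) =ᶠ[𝓝 z] fun y => θ y a (ζ y h) :=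
    B.kill.mono fun y hy => (hy a h).symm
  have e3 := congrArg (fun L => L v) ((e1.congr_of_eventuallyEq e2).unique (hasFDerivAt_const 0 z))
  rw [B.d, eq_neg_iff_add_eq_zero, add_comm]
  simpa using e3

/-- derivative of `θ (c s) (g s)` along a curve tangent to `ζ` -/
theorem Bas.hasDeriv {θ : Z → G →L[ℝ] Z →L[ℝ] ℝ} {ζ : Z → H →L[ℝ] Z} {c : ℝ → Z} {g : ℝ → G}
    {s : Set ℝ} {τ : ℝ} {β : H} {dg : G} (B : Bas θ ζ (c τ)) (hζ : DifferentiableAt ℝ ζ (c τ))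
    (hc : HasDerivWithinAt c (ζ (c τ) β) s τ) (hg : HasDerivWithinAt g dg s τ) (v : Z) :
    HasDerivWithinAt (fun t => θ (c t) (g t) v)
      (θ (c τ) dg v - θ (c τ) (g τ) (fderiv ℝ ζ (c τ) v β)) s τ := by
  have e0 : HasDerivWithinAt (fun t => θ (c t)) (fderiv ℝ θ (c τ) (ζ (c τ) β)) s τ :=
    B.diff.hasFDerivAt.comp_hasDerivWithinAt τ hc
  have e1 : HasDerivWithinAt (fun t => θ (c t) (g t))
      (fderiv ℝ θ (c τ) (ζ (c τ) β) (g τ) + θ (c τ) dg) s τ := e0.clm_apply hg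
  have e2 := (ContinuousLinearMap.apply ℝ ℝ v).hasFDerivAt.comp_hasDerivWithinAt τ e1
  refine HasDerivWithinAt.congr_deriv e2 ?_
  simp only [ContinuousLinearMap.apply_apply, add_apply]
  rw [B.der hζ]
  abel

/-- **development step**: the relation `θ g = θ' g'` along a curve tangent to `ζ` can be
differentiated -/
theorem step {θ : Z → G →L[ℝ] Z →L[ℝ] ℝ} {θ' : Z → G' →L[ℝ] Z →L[ℝ] ℝ} {ζ : Z → H →L[ℝ] Z}
    {c : ℝ → Z} {g : ℝ → G} {g' : ℝ → G'} {s : Set ℝ} {τ : ℝ} {β : H} {dg : G} {dg' : G'}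
    (B : Bas θ ζ (c τ)) (B' : Bas θ' ζ (c τ)) (hζ : DifferentiableAt ℝ ζ (c τ))
    (hs : UniqueDiffWithinAt ℝ s τ) (hτ : τ ∈ s) (hc : HasDerivWithinAt c (ζ (c τ) β) s τ)
    (hg : HasDerivWithinAt g dg s τ) (hg' : HasDerivWithinAt g' dg' s τ)
    (he : ∀ t ∈ s, θ (c t) (g t) = θ' (c t) (g' t)) : θ (c τ) dg = θ' (c τ) dg' := by
  ext v
  have e1 := B.hasDeriv hζ hc hg v
  have e2 := (B'.hasDeriv hζ hc hg' v).congr (f₁ := fun t => θ (c t) (g t) v)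
    (fun t ht => by rw [he t ht]) (by rw [he τ hτ])
  have e3 := hs.eq_deriv _ e1 e2
  rw [he τ hτ] at e3
  linarith

theorem contDiffOn_iter {f : ℝ → G} {s : Set ℝ} (hs : IsOpen s) (hf : ContDiffOn ℝ ∞ f s) (k : ℕ) :
    ContDiffOn ℝ ∞ (iteratedDeriv k f) s := by
  induction k with
  | zero => simpa using hf
  | succ k ih =>
    rw [iteratedDeriv_succ]
    exact ((contDiffOn_infty_iff_deriv_of_isOpen hs).1 ih).2

theorem hasDerivAt_iter {f : ℝ → G} {s : Set ℝ} (hs : IsOpen s) (hf : ContDiffOn ℝ ∞ f s) (k : ℕ)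
    {t : ℝ} (ht : t ∈ s) : HasDerivAt (iteratedDeriv k f) (iteratedDeriv (k + 1) f t) t := by
  rw [iteratedDeriv_succ]
  exact (((contDiffOn_iter hs hf k).contDiffAt (hs.mem_nhds ht)).differentiableAt
    (by simp)).hasDerivAt

/-- all derivatives on an open set of parameters -/
theorem iter {θ : Z → G →L[ℝ] Z →L[ℝ] ℝ} {θ' : Z → G' →L[ℝ] Z →L[ℝ] ℝ} {ζ : Z → H →L[ℝ] Z}
    {c : ℝ → Z} {g : ℝ → G} {g' : ℝ → G'} {s : Set ℝ} (hs : IsOpen s)
    (B : ∀ t ∈ s, Bas θ ζ (c t)) (B' : ∀ t ∈ s, Bas θ' ζ (c t))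
    (hζ : ∀ t ∈ s, DifferentiableAt ℝ ζ (c t))
    (hc : ∀ t ∈ s, ∃ β, HasDerivAt c (ζ (c t) β) t)
    (hg : ContDiffOn ℝ ∞ g s) (hg' : ContDiffOn ℝ ∞ g' s)
    (he : ∀ t ∈ s, θ (c t) (g t) = θ' (c t) (g' t)) (n : ℕ) :
    ∀ t ∈ s, θ (c t) (iteratedDeriv n g t) = θ' (c t) (iteratedDeriv n g' t) := by
  induction n with
  | zero => simpa using he
  | succ n ih =>
    intro t ht
    obtain ⟨β, hβ⟩ := hc t ht
    exact step (B t ht) (B' t ht) (hζ t ht) (hs.uniqueDiffWithinAt ht) ht hβ.hasDerivWithinAt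
      (hasDerivAt_iter hs hg n ht).hasDerivWithinAt (hasDerivAt_iter hs hg' n ht).hasDerivWithinAt ih

section Pull

variable (om : Z →L[ℝ] Z →L[ℝ] ℝ)

/-- the one-forms `om (ι g, ·)` -/
def th (ι : Z → G →L[ℝ] Z) (z : Z) : G →L[ℝ] Z →L[ℝ] ℝ := om ∘L ι z

/-- the pull back of the one-forms `om (ι g, ·)` by `ψ` -/
def pth (ι : Z → G →L[ℝ] Z) (ψ : Z → Z) (z : Z) : G →L[ℝ] Z →L[ℝ] ℝ :=
  ((ContinuousLinearMap.compL ℝ Z Z ℝ).flip (fderiv ℝ ψ z)) ∘L om ∘L ι (ψ z)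

@[simp] theorem th_apply (ι : Z → G →L[ℝ] Z) (z : Z) (g : G) (v : Z) :
    th om ι z g v = om (ι z g) v := rfl

@[simp] theorem pth_apply (ι : Z → G →L[ℝ] Z) (ψ : Z → Z) (z : Z) (g : G) (v : Z) :
    pth om ι ψ z g v = om (ι (ψ z) g) (fderiv ℝ ψ z v) := rfl

variable {om}

theorem fderiv_eval {θ : Z → G →L[ℝ] Z →L[ℝ] ℝ} {z : Z} (h : DifferentiableAt ℝ θ z) (a : G)
    (v u : Z) : fderiv ℝ θ z u a v = fderiv ℝ (fun y => θ y a v) z u := by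
  rw [((h.hasFDerivAt.clm_apply (hasFDerivAt_const a z)).clm_apply
    (hasFDerivAt_const v z)).fderiv]
  simp

theorem diff_th {ι : Z → G →L[ℝ] Z} {z : Z} (h : DifferentiableAt ℝ ι z) :
    DifferentiableAt ℝ (th om ι) z :=
  (differentiableAt_const om).clm_comp h

theorem fderiv_th {ι : Z → G →L[ℝ] Z} {z : Z} (h : DifferentiableAt ℝ ι z) (u : Z) (a : G)
    (v : Z) : fderiv ℝ (th om ι) z u a v = om (fderiv ℝ ι z u a) v := by
  rw [fderiv_eval (diff_th h)]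
  have e := (om.hasFDerivAt.comp z (h.hasFDerivAt.clm_apply (hasFDerivAt_const a z))).clm_apply
    (hasFDerivAt_const v z)
  rw [show (fun y => th om ι y a v) = fun y => (om ∘ fun y => ι y a) y v from rfl, e.fderiv]
  simp

theorem diff_pth {ι : Z → G →L[ℝ] Z} {ψ : Z → Z} {z : Z} (hψ : ContDiffAt ℝ 2 ψ z)
    (h : DifferentiableAt ℝ ι (ψ z)) : DifferentiableAt ℝ (pth om ι ψ) z := by
  have h1 : DifferentiableAt ℝ (fderiv ℝ ψ) z :=
    (hψ.fderiv_right (m := 1) (by norm_num)).differentiableAt (by simp)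
  have h2 : DifferentiableAt ℝ (fun y => ι (ψ y)) z := h.comp z (hψ.differentiableAt (by simp))
  exact (((ContinuousLinearMap.compL ℝ Z Z ℝ).flip.differentiableAt).comp z h1).clm_comp
    ((differentiableAt_const om).clm_comp h2)

theorem fderiv_pth {ι : Z → G →L[ℝ] Z} {ψ : Z → Z} {z : Z} (hψ : ContDiffAt ℝ 2 ψ z)
    (h : DifferentiableAt ℝ ι (ψ z)) (u : Z) (a : G) (v : Z) :
    fderiv ℝ (pth om ι ψ) z u a v = om (fderiv ℝ ι (ψ z) (fderiv ℝ ψ z u) a) (fderiv ℝ ψ z v) +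
      om (ι (ψ z) a) (fderiv ℝ (fderiv ℝ ψ) z u v) := by
  rw [fderiv_eval (diff_pth hψ h)]
  have h1 : DifferentiableAt ℝ (fderiv ℝ ψ) z :=
    (hψ.fderiv_right (m := 1) (by norm_num)).differentiableAt (by simp)
  have h2 := h.hasFDerivAt.comp z (hψ.differentiableAt (by simp)).hasFDerivAt
  have e := (om.hasFDerivAt.comp z (h2.clm_apply (hasFDerivAt_const a z))).clm_apply
    (h1.hasFDerivAt.clm_apply (hasFDerivAt_const v z))
  rw [show (fun y => pth om ι ψ y a v) =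
    fun y => (om ∘ fun y => (ι ∘ ψ) y a) y (fderiv ℝ ψ y v) from rfl, e.fderiv]
  simp [add_comm]

/-- `th` is basic -/
theorem bas_th {ι : Z → G →L[ℝ] Z} {ζ : Z → H →L[ℝ] Z} {z : Z} (h : DifferentiableAt ℝ ι z)
    (h0 : ∀ᶠ y in 𝓝 z, ∀ a b, om (ι y a) (ζ y b) = 0)
    (hb : ∀ a b v, om (fderiv ℝ ι z (ζ z b) a) v = om (fderiv ℝ ι z v a) (ζ z b)) :
    Bas (th om ι) ζ z :=
  ⟨diff_th h, h0, fun a b v => by rw [fderiv_th h, fderiv_th h, hb]⟩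

/-- the pull back `pth` is basic -/
theorem bas_pth {ι : Z → G →L[ℝ] Z} {ζ : Z → H →L[ℝ] Z} {ψ : Z → Z} {z : Z}
    (hψ : ContDiffAt ℝ 2 ψ z) (h : DifferentiableAt ℝ ι (ψ z))
    (h0 : ∀ᶠ y in 𝓝 z, ∀ a b, om (ι (ψ y) a) (fderiv ℝ ψ y (ζ y b)) = 0)
    (hb : ∀ a b v, om (fderiv ℝ ι (ψ z) (fderiv ℝ ψ z (ζ z b)) a) v =
      om (fderiv ℝ ι (ψ z) v a) (fderiv ℝ ψ z (ζ z b))) :
    Bas (pth om ι ψ) ζ z :=
  ⟨diff_pth hψ h, h0, fun a b v => by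
    rw [fderiv_pth hψ h, fderiv_pth hψ h, hb, (hψ.isSymmSndFDerivAt (by simp)) (ζ z b) v]⟩

end Pull

end Crest.Agent.N221.NB.Dev
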