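import Crest.Agent.N221.NB.Dev

/-! Row 221, no branching: joint flows and development (uniqueness, invariance of basic forms and
of commuting frames, polynomial developments, naturality). -/

set_option autoImplicit false
set_option linter.unusedSectionVars false
set_option maxSynthPendingDepth 3

open Set Filter Topology
open scoped ContDiff

noncomputable section

namespace Crest.Agent.N221.NB.Dev

open Fr

variable {Z G G' H : Type} [NormedAddCommGroup Z] [NormedSpace ℝ Z] [NormedAddCommGroup G]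
  [NormedSpace ℝ G] [NormedAddCommGroup G'] [NormedSpace ℝ G'] [NormedAddCommGroup H]
  [NormedSpace ℝ H]

/-- the solution of a smooth injective linear system with smooth right hand side is smooth -/
theorem contDiffAt_of_inj {T X : Type} [NormedAddCommGroup T] [NormedSpace ℝ T]
    [NormedAddCommGroup X] [NormedSpace ℝ X] [FiniteDimensional ℝ G] [FiniteDimensional ℝ X]
    {n : WithTop ℕ∞} {L : T → G →L[ℝ] X} {g : T → G} {F : T → X} {t : T}
    (hL : ContDiffAt ℝ n L t) (hF : ContDiffAt ℝ n F t) (hi : Function.Injective (L t))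
    (he : ∀ᶠ s in 𝓝 t, L s (g s) = F s) : ContDiffAt ℝ n g t := by
  have : CompleteSpace G := FiniteDimensional.complete ℝ G
  obtain ⟨R, hR⟩ := (L t : G →ₗ[ℝ] X).exists_leftInverse_of_injective
    (LinearMap.ker_eq_bot.2 hi)
  set R' : X →L[ℝ] G := LinearMap.toContinuousLinearMap R with hR'
  have h1 : ContDiffAt ℝ n (fun s => R' ∘L L s) t := contDiffAt_const.clm_comp hL
  have h0 : R' ∘L L t = ContinuousLinearMap.id ℝ G := by
    ext v
    exact congrArg (fun f : G →ₗ[ℝ] G => f v) hR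
  have hinv : (R' ∘L L t).IsInvertible := by rw [h0]; exact ⟨.refl ℝ G, rfl⟩
  have h2' : ContDiffAt ℝ n (fun s => (R' ∘L L s).inverse) t :=
    ContDiffAt.comp (g := ContinuousLinearMap.inverse) (f := fun s => R' ∘L L s) t
      hinv.contDiffAt_map_inverse h1
  have h2 : ContDiffAt ℝ n (fun s => (R' ∘L L s).inverse (R' (F s))) t :=
    h2'.clm_apply (R'.contDiff.contDiffAt.comp t hF)
  refine h2.congr_of_eventuallyEq ?_
  have h3 : ∀ᶠ s in 𝓝 t, (R' ∘L L s).IsInvertible :=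
    h1.continuousAt.eventually (ContinuousLinearEquiv.isOpen.mem_nhds hinv)
  filter_upwards [he, h3] with s hs hs'
  rw [← hs]
  exact (hs'.inverse_apply_self (g s)).symm

/-- uniqueness for `x' = X x (g t)` inside the open set on which `X` is `C¹` -/
theorem ode_uniq {X : Z → G →L[ℝ] Z} {U : Set Z} (hU : IsOpen U) (hX : ContDiffOn ℝ 1 X U)
    {g : ℝ → G} {a b : ℝ} (hg : ContinuousOn g (Icc a b)) {x y : ℝ → Z}
    (hxc : ContinuousOn x (Icc a b)) (hyc : ContinuousOn y (Icc a b))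
    (hxU : ∀ t ∈ Icc a b, x t ∈ U) (hyU : ∀ t ∈ Icc a b, y t ∈ U)
    (hx : ∀ t ∈ Ico a b, HasDerivWithinAt x (X (x t) (g t)) (Ici t) t)
    (hy : ∀ t ∈ Ico a b, HasDerivWithinAt y (X (y t) (g t)) (Ici t) t) (h0 : x a = y a) :
    ∀ t ∈ Icc a b, x t = y t := by
  set K : Set Z := x '' Icc a b ∪ y '' Icc a b with hK
  have hKc : IsCompact K :=
    (isCompact_Icc.image_of_continuousOn hxc).union (isCompact_Icc.image_of_continuousOn hyc)
  have hKU : K ⊆ U := by
    rintro _ (⟨t, ht, rfl⟩ | ⟨t, ht, rfl⟩)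
    exacts [hxU t ht, hyU t ht]
  have hl : LocallyLipschitzOn K X := fun z hz => by
    obtain ⟨k, t, ht, h⟩ := (hX.contDiffAt (hU.mem_nhds (hKU hz))).exists_lipschitzOnWith
    exact ⟨k, t, mem_nhdsWithin_of_mem_nhds ht, h⟩
  obtain ⟨k, hk⟩ := hl.exists_lipschitzOnWith_of_compact hKc
  obtain ⟨C, hC⟩ := isCompact_Icc.exists_bound_of_continuousOn hg
  refine ODE_solution_unique_of_mem_Icc_right (v := fun t z => X z (g t)) (s := fun _ => K)
    (K := k * C.toNNReal) (fun t ht => ?_) hxc hx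
    (fun t ht => Or.inl ⟨t, Ico_subset_Icc_self ht, rfl⟩) hyc hy
    (fun t ht => Or.inr ⟨t, Ico_subset_Icc_self ht, rfl⟩) h0
  refine LipschitzOnWith.of_dist_le_mul fun z hz z' hz' => ?_
  rw [dist_eq_norm, ← sub_apply]
  refine ((X z - X z').le_opNorm _).trans ?_
  have h1 := hk.dist_le_mul z hz z' hz'
  rw [dist_eq_norm] at h1
  have h2 : ‖g t‖ ≤ C.toNNReal := (hC t (Ico_subset_Icc_self ht)).trans (Real.le_coe_toNNReal C)
  calc ‖X z - X z'‖ * ‖g t‖ ≤ (k * dist z z') * C.toNNReal := by gcongr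
    _ = _ := by push_cast; ring

section JF

variable {X : Z → G →L[ℝ] Z} {U : Set Z} {D : Set (Z × G)} {J : Z × G → Z}

theorem jf_at (hJ : JF X U D J) {p : Z × G} (hp : p ∈ D) : ContDiffAt ℝ ∞ J p :=
  hJ.sm.contDiffAt (hJ.op.mem_nhds hp)

/-- derivative of `J (y, w τ)` -/
theorem jf_curve (hJ : JF X U D J) {y : Z} {w : ℝ → G} {w' : G} {s : Set ℝ} {t : ℝ}
    (hp : (y, w t) ∈ D) (hw : HasDerivWithinAt w w' s t) :
    HasDerivWithinAt (fun t => J (y, w t)) (X (J (y, w t)) w') s t := by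
  have := ((jf_at hJ hp).differentiableAt (by simp)).hasFDerivAt.comp_hasDerivWithinAt t
    ((hasDerivWithinAt_const t s y).prodMk hw)
  rwa [hJ.der _ hp] at this

/-- **DEV**: a curve with `x' = X x w'` is the development `J (x a, w - w a)` -/
theorem jf_dev (hU : IsOpen U) (hX : ContDiffOn ℝ 1 X U) (hJ : JF X U D J) {x : ℝ → Z}
    {w w' : ℝ → G} {a b : ℝ} (hw' : ContinuousOn w' (Icc a b)) (hwc : ContinuousOn w (Icc a b))
    (hw : ∀ t ∈ Ico a b, HasDerivWithinAt w (w' t) (Ici t) t) (hw0 : w a = 0)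
    (hxc : ContinuousOn x (Icc a b)) (hxU : ∀ t ∈ Icc a b, x t ∈ U)
    (hx : ∀ t ∈ Ico a b, HasDerivWithinAt x (X (x t) (w' t)) (Ici t) t)
    (hD : ∀ t ∈ Icc a b, (x a, w t) ∈ D) : ∀ t ∈ Icc a b, x t = J (x a, w t) := by
  intro t ht
  refine ode_uniq hU hX hw' hxc (y := fun t => J (x a, w t))
    (hJ.sm.continuousOn.comp (continuousOn_const.prodMk hwc) hD) hxU
    (fun t ht => hJ.mem _ (hD t ht)) hx
    (fun t ht => jf_curve hJ (hD t (Ico_subset_Icc_self ht)) (hw t ht)) ?_ t ht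
  have ha : a ∈ Icc a b := left_mem_Icc.2 (ht.1.trans ht.2)
  show x a = J (x a, w a)
  rw [hw0, hJ.init _ (hxU a ha)]

theorem jf_init_der (hU : IsOpen U) (hJ : JF X U D J) {y : Z} (hy : y ∈ U) (v : Z) :
    fderiv ℝ J (y, 0) (v, 0) = v := by
  have d := ((jf_at hJ (hJ.zero y hy)).differentiableAt (by simp)).hasFDerivAt
  have e1 := d.comp y (f := fun y : Z => (y, (0 : G))) (hasFDerivAt_prodMk_left y 0)
  have e3 : (J ∘ fun y : Z => (y, (0 : G))) =ᶠ[𝓝 y] fun y => y := by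
    filter_upwards [hU.mem_nhds hy] with q hq using hJ.init q hq
  exact congrArg (fun L => L v) ((e1.congr_of_eventuallyEq e3.symm).unique (hasFDerivAt_id y))

/-- the variational equation along a ray -/
theorem jf_var (hU : IsOpen U) (hX : ContDiffOn ℝ 1 X U) (hJ : JF X U D J) {y : Z} {w : G}
    {t : ℝ} (hp : (y, t • w) ∈ D) (v : Z) :
    HasDerivAt (fun t : ℝ => fderiv ℝ J (y, t • w) (v, 0))
      (fderiv ℝ X (J (y, t • w)) (fderiv ℝ J (y, t • w) (v, 0)) w) t := by
  have hJa := jf_at hJ hp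
  have dJ := (hJa.differentiableAt (by simp)).hasFDerivAt
  have dX := ((hX.contDiffAt (hU.mem_nhds (hJ.mem _ hp))).differentiableAt (by simp)).hasFDerivAt
  have d2 := ((hJa.fderiv_right (m := 1) two_le).differentiableAt (by simp)).hasFDerivAt
  have sy := hJa.isSymmSndFDerivAt (by simpa using two_le')
  have hc : HasDerivAt (fun t : ℝ => ((y, t • w) : Z × G)) (0, w) t := by
    simpa using (hasDerivAt_const t y).prodMk ((hasDerivAt_id t).smul_const w)
  have a1 : HasDerivAt (fun t : ℝ => fderiv ℝ J (y, t • w) (v, 0))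
      (fderiv ℝ (fderiv ℝ J) (y, t • w) (0, w) (v, 0)) t := by
    have a0 : HasDerivAt (fun t : ℝ => fderiv ℝ J (y, t • w))
        (fderiv ℝ (fderiv ℝ J) (y, t • w) (0, w)) t :=
      HasFDerivAt.comp_hasDerivAt (l := fderiv ℝ J) (f := fun t : ℝ => ((y, t • w) : Z × G)) t d2 hc
    simpa using a0.clm_apply (hasDerivAt_const t ((v, 0) : Z × G))
  refine a1.congr_deriv ?_
  rw [sy]
  have e1 := d2.clm_apply (hasFDerivAt_const (((0 : Z), w) : Z × G) (y, t • w))
  have e2 := (dX.comp _ dJ).clm_apply (hasFDerivAt_const w (y, t • w))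
  have e3 : (fun q => fderiv ℝ J q (0, w)) =ᶠ[𝓝 (y, t • w)] fun q => X (J q) w := by
    filter_upwards [hJ.op.mem_nhds hp] with q hq using hJ.der q hq w
  have e4 := congrArg (fun L => L (v, 0)) ((e1.congr_of_eventuallyEq e3.symm).unique e2)
  simpa using e4

theorem jf_ray (hJ : JF X U D J) {y : Z} {w : G} {t : ℝ} (hp : (y, t • w) ∈ D) :
    HasDerivAt (fun t : ℝ => J (y, t • w)) (X (J (y, t • w)) w) t := by
  have h1 : HasDerivAt (fun t : ℝ => t • w) w t := by
    simpa using (hasDerivAt_id t).smul_const w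
  have := jf_curve hJ (w := fun t : ℝ => t • w) (s := univ) hp h1.hasDerivWithinAt
  exact hasDerivWithinAt_univ.1 this

/-- the joint flow preserves the forms that are basic for it -/
theorem jf_bas (hU : IsOpen U) (hX : ContDiffOn ℝ 1 X U) (hJ : JF X U D J)
    {θ : Z → H →L[ℝ] Z →L[ℝ] ℝ} (B : ∀ z ∈ U, Bas θ X z) {p : Z × G} (hp : p ∈ D) (a : H)
    (v : Z) : θ (J p) a (fderiv ℝ J p (v, 0)) = θ p.1 a v := by
  obtain ⟨y, w⟩ := p
  have hm : ∀ t ∈ Icc (0 : ℝ) 1, (y, t • w) ∈ D := fun t ht => hJ.star _ hp t ht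
  have hd : ∀ t ∈ Icc (0 : ℝ) 1, HasDerivAt
      (fun t : ℝ => θ (J (y, t • w)) a (fderiv ℝ J (y, t • w) (v, 0))) 0 t := fun t ht => by
    have hz := hJ.mem _ (hm t ht)
    have e0 : HasDerivAt (fun t : ℝ => θ (J (y, t • w)))
        (fderiv ℝ θ (J (y, t • w)) (X (J (y, t • w)) w)) t :=
      (B _ hz).diff.hasFDerivAt.comp_hasDerivAt t (jf_ray hJ (hm t ht))
    have e1 : HasDerivAt (fun t : ℝ => θ (J (y, t • w)) a)
        (fderiv ℝ θ (J (y, t • w)) (X (J (y, t • w)) w) a) t := by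
      simpa using e0.clm_apply (hasDerivAt_const t a)
    refine (e1.clm_apply (jf_var hU hX hJ (hm t ht) v)).congr_deriv ?_
    rw [(B _ hz).der ((hX.contDiffAt (hU.mem_nhds hz)).differentiableAt (by simp))]
    simp
  have := constant_of_has_deriv_right_zero (a := 0) (b := 1)
    (fun t ht => (hd t ht).continuousAt.continuousWithinAt)
    (fun t ht => (hd t ⟨ht.1, ht.2.le⟩).hasDerivWithinAt) 1 ⟨zero_le_one, le_rfl⟩
  simpa [hJ.init y (hJ.mem1 _ hp), jf_init_der hU hJ (hJ.mem1 _ hp)] using this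

/-- the joint flow preserves the fields commuting with it -/
theorem jf_comm (hU : IsOpen U) (hX : ContDiffOn ℝ 1 X U) (hJ : JF X U D J)
    {ζ : Z → H →L[ℝ] Z} (hζ : ∀ z ∈ U, DifferentiableAt ℝ ζ z)
    (hc : ∀ z ∈ U, ∀ a b, fderiv ℝ ζ z (X z a) b = fderiv ℝ X z (ζ z b) a) {p : Z × G}
    (hp : p ∈ D) (b : H) : fderiv ℝ J p (ζ p.1 b, 0) = ζ (J p) b := by
  obtain ⟨y, w⟩ := p
  have hm : ∀ t ∈ Icc (0 : ℝ) 1, (y, t • w) ∈ D := fun t ht => hJ.star _ hp t ht
  have := lin0 (A := fun t : ℝ => (fderiv ℝ X (J (y, t • w))).flip w)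
    (f := fun t : ℝ => fderiv ℝ J (y, t • w) (ζ y b, 0) - ζ (J (y, t • w)) b) ?_ ?_ ?_ 1
    (right_mem_Icc.2 zero_le_one)
  · simpa [sub_eq_zero] using this
  · intro t ht
    have a : ContinuousAt (fun t : ℝ => fderiv ℝ X (J (y, t • w))) t :=
      ((hX.contDiffAt (hU.mem_nhds (hJ.mem _ (hm t ht)))).fderiv_right (m := 0)
        (by simp)).continuousAt.comp (f := fun t : ℝ => J (y, t • w))
        (jf_ray hJ (hm t ht)).continuousAt
    have b : Continuous fun L : Z →L[ℝ] G →L[ℝ] Z => L.flip w :=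
      ((ContinuousLinearMap.flipₗᵢ ℝ Z G Z).continuous).clm_apply continuous_const
    exact (b.continuousAt.comp a).continuousWithinAt
  · intro t ht
    have hz := hJ.mem _ (hm t ht)
    have e0 : HasDerivAt (fun t : ℝ => ζ (J (y, t • w)))
        (fderiv ℝ ζ (J (y, t • w)) (X (J (y, t • w)) w)) t :=
      (hζ _ hz).hasFDerivAt.comp_hasDerivAt t (jf_ray hJ (hm t ht))
    have e1 : HasDerivAt (fun t : ℝ => ζ (J (y, t • w)) b)
        (fderiv ℝ ζ (J (y, t • w)) (X (J (y, t • w)) w) b) t := by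
      simpa using e0.clm_apply (hasDerivAt_const t b)
    refine ((jf_var hU hX hJ (hm t ht) (ζ y b)).sub e1).congr_deriv ?_
    rw [hc _ hz]
    simp
  · simp [hJ.init y (hJ.mem1 _ hp), jf_init_der hU hJ (hJ.mem1 _ hp)]

end JF

end Crest.Agent.N221.NB.Dev
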