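import Crest.Agent.N221.NB.Defs
import Crest.Agent.N221.Fr.Jf
import Crest.Agent.N221.A1.PAll

/-! Row 221, block NB: the glue `noS`. -/

set_option autoImplicit false
set_option linter.unusedSectionVars false
set_option linter.unusedVariables false

open Set Metric Filter Topology
open scoped ContDiff

noncomputable section

namespace Crest.Agent.N221.NB

section poly

variable {V W : Type} [NormedAddCommGroup V] [NormedSpace ℝ V] [NormedAddCommGroup W]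
  [NormedSpace ℝ W] {N : ℕ} {w : ℝ → V}

lemma Poly.clm (h : Poly N w) (A : V →L[ℝ] W) : Poly N fun τ => A (w τ) := by
  obtain ⟨c, hc⟩ := h
  exact ⟨fun i => A (c i), fun τ => by simp [hc, map_sum]⟩

lemma Poly.diff (h : Poly N w) : Differentiable ℝ w := by
  obtain ⟨c, hc⟩ := h
  rw [show w = _ from funext hc]
  fun_prop

lemma Poly.remez (h : Poly N w) {l η : ℝ} (hl : 0 < l) (hl1 : l ≤ 1)
    (hb : ∀ t ∈ Icc 0 l, ‖w t‖ ≤ η) : ∀ t ∈ Icc (0 : ℝ) 1, ‖w t‖ ≤ (6 * 1 / l) ^ N * η := by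
  obtain ⟨c, hc⟩ := h
  intro t ht
  rw [hc]
  exact PS.remS V N c l 1 η hl hl1 (fun t ht => hc t ▸ hb t ht) t ht

end poly

lemma ev_small {c : ℝ} (hc : 0 < c) (M : ℝ) {m : ℝ} (hm : 0 < m) :
    ∀ᶠ T : ℝ in atTop, M * Real.exp (-(c * T)) ≤ m := by
  have h : Tendsto (fun T : ℝ => M * Real.exp (-(c * T))) atTop (𝓝 (M * 0)) :=
    (Real.tendsto_exp_neg_atTop_nhds_zero.comp (tendsto_id.const_mul_atTop hc)).const_mul M
  rw [mul_zero] at h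
  exact (h.eventually (gt_mem_nhds hm)).mono fun _ h => h.le

lemma pinv {P : Type} (f : Equiv.Perm P) (x : P) : f⁻¹ (f x) = x := f.symm_apply_apply x

lemma pinv' {P : Type} (f : Equiv.Perm P) (x : P) : f (f⁻¹ x) = x := f.apply_symm_apply x

section dyn

variable {P Y : Type} [MetricSpace P] [MetricSpace Y] {d : Dat P Y} {a : ℝ}

lemma Dat.Ss.symm {p q : P} (h : d.Ss p q) : d.Ss q p := ⟨h.1.symm, h.2.symm⟩

lemma Dat.Ss.trans {p q o : P} (h : d.Ss p q) (h' : d.Ss q o) : d.Ss p o :=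
  ⟨h.1.trans h'.1, h.2.trans h'.2⟩

lemma Dyn.pow (h : Dyn d a) {T : ℝ} {f : Equiv.Perm P} (hf : f ∈ d.Mv T) (j : ℕ) :
    f ^ j ∈ d.Mv (j * T) := by
  induction j with
  | zero => simpa using h.one
  | succ j ih =>
    have := h.mul _ _ _ ih _ hf
    rw [← pow_succ] at this
    convert this using 2
    push_cast; ring

/-- the end of the argument: a short polygon keeps its first vertex in a bounded set -/
lemma Dyn.ending (h : Dyn d a) {x₀ x₁ : P} (hx : d.ξ x₁ ≠ d.ξ x₀) :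
    ∃ R ρ : ℝ, 0 < ρ ∧ ∀ᶠ q in 𝓝 x₁, ∀ n₀ n₁, d.Ss x₀ n₀ → d.Ss q n₁ →
      (∃ T, ∃ f ∈ d.Mv T, dist (f n₁) (f n₀) ≤ ρ) → dist n₀ x₀ ≤ R := by
  have h0 : 0 < dist (d.ξ x₁) (d.ξ x₀) / 3 := by have := dist_pos.2 hx; positivity
  obtain ⟨C, ρ, hρ, hC⟩ := h.fin _ h0
  obtain ⟨R, hR⟩ := h.prop x₀ (|C| + |d.s x₀| + |d.s x₁| + 1)
  refine ⟨R, ρ, hρ, ?_⟩
  filter_upwards [Metric.tendsto_nhds.1 (h.cξ.tendsto x₁) _ h0,
    Metric.tendsto_nhds.1 (h.cs'.tendsto x₁) _ one_pos] with q q1 q2 n₀ n₁ s0 s1 ⟨T, f, hf, hd⟩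
  have p1 := abs_nonneg C
  have p2 := abs_nonneg (d.s x₀)
  have p3 := abs_nonneg (d.s x₁)
  refine hR _ (by rw [← s0.2]; linarith) ?_
  rw [Real.dist_eq] at q2
  have c0 := le_abs_self C
  rcases le_or_gt (dist (d.ξ x₁) (d.ξ x₀) / 3) (dist (d.ξ n₀) (d.η n₀)) with e | e
  · have := hC 0 1 h.one n₀ n₀ (by simpa using hρ.le) e
    rw [← s0.2] at this
    rw [abs_le] at this ⊢
    constructor <;> linarith [le_abs_self (d.s x₀), neg_abs_le (d.s x₀), this.1, this.2]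
  · have := hC T f hf n₀ n₁ (by rwa [dist_comm]) (by
      rw [← s1.1]
      rw [← s0.1] at e
      linarith [dist_triangle4 (d.ξ x₁) (d.ξ q) (d.η n₀) (d.ξ x₀), dist_comm (d.ξ q) (d.ξ x₁),
        dist_comm (d.ξ x₀) (d.η n₀)])
    rw [← s1.2] at this
    rw [abs_le] at this ⊢
    rw [abs_lt] at q2
    constructor <;> linarith [le_abs_self (d.s x₁), neg_abs_le (d.s x₁), this.1, this.2, q2.1, q2.2]

end dyn

section est

variable {Z GI Gu : Type} [NormedAddCommGroup Z] [NormedSpace ℝ Z] [NormedAddCommGroup GI]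
  [NormedSpace ℝ GI] [NormedAddCommGroup Gu] [NormedSpace ℝ Gu]

lemma norm_pair (y x : Z) (w : GI) : ‖(y, w) - (x, w)‖ = ‖y - x‖ := by simp [Prod.norm_def]

/-- two neighbouring nodes -/
lemma nb_est {J : Z × GI → Z} {ν : Z → Gu →L[ℝ] Z} {B B' : Set Z} {B'' : Set GI} {KJ Kν : ℝ}
    (k1 : 0 ≤ KJ) (k2 : 0 ≤ Kν)
    (hJ : ∀ k ∈ B ×ˢ B'', ∀ k' ∈ B ×ˢ B'', ‖J k - J k'‖ ≤ KJ * ‖k - k'‖)
    (hν : ∀ z ∈ B', ∀ z' ∈ B', ‖ν z - ν z'‖ ≤ Kν * ‖z - z'‖) {y y' x x' : Z} {w w' : GI}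
    {δ Kq C : ℝ} (g : Gu) (k3 : 0 ≤ Kq) (hy : y ∈ B) (hy' : y' ∈ B) (hx : x ∈ B) (hx' : x' ∈ B)
    (hw : w ∈ B'') (hw' : w' ∈ B'') (m1 : J (y, w) ∈ B') (m2 : J (x, w) ∈ B') (d0 : 0 ≤ δ)
    (d1 : δ ≤ 1) (h1 : ‖y - x‖ ≤ Kq * δ ^ 2) (h2 : ‖y' - x'‖ ≤ Kq * δ ^ 2)
    (h3 : ‖(x', w') - (x, w)‖ ≤ C * δ)
    (h4 : ‖J (x', w') - J (x, w) - δ • ν (J (x, w)) g‖ ≤ C * δ ^ 2) :
    ‖J (y', w') - J (y, w)‖ ≤ KJ * (C + 2 * Kq) * δ ∧
      ‖J (y', w') - J (y, w) - ν (J (y, w)) (δ • g)‖ ≤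
        (2 * KJ * Kq + C + Kν * KJ * Kq * ‖g‖) * δ ^ 2 := by
  have a1 := hJ (y, w) ⟨hy, hw⟩ (x, w) ⟨hx, hw⟩
  have a2 := hJ (y', w') ⟨hy', hw'⟩ (x', w') ⟨hx', hw'⟩
  have a3 := hJ (x', w') ⟨hx', hw'⟩ (x, w) ⟨hx, hw⟩
  rw [norm_pair] at a1 a2
  replace a1 := a1.trans (mul_le_mul_of_nonneg_left h1 k1)
  replace a2 := a2.trans (mul_le_mul_of_nonneg_left h2 k1)
  replace a3 := a3.trans (mul_le_mul_of_nonneg_left h3 k1)
  have d2 : δ ^ 2 ≤ δ := by nlinarith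
  constructor
  · rw [show J (y', w') - J (y, w) = (J (y', w') - J (x', w')) + (J (x', w') - J (x, w)) -
      (J (y, w) - J (x, w)) by abel]
    refine (norm_sub_le_of_le (norm_add_le_of_le a2 a3) a1).trans ?_
    nlinarith [mul_le_mul_of_nonneg_left d2 (mul_nonneg k1 k3)]
  · have a4 : ‖δ • (ν (J (y, w)) - ν (J (x, w))) g‖ ≤ Kν * KJ * Kq * ‖g‖ * δ ^ 2 := by
      rw [norm_smul, Real.norm_of_nonneg d0]
      have b1 := ((ν (J (y, w)) - ν (J (x, w))).le_opNorm g).trans (mul_le_mul_of_nonneg_right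
        ((hν _ m1 _ m2).trans (mul_le_mul_of_nonneg_left a1 k2)) (norm_nonneg g))
      nlinarith [mul_le_mul_of_nonneg_right d1 (norm_nonneg ((ν (J (y, w)) - ν (J (x, w))) g))]
    rw [show J (y', w') - J (y, w) - ν (J (y, w)) (δ • g) = (J (y', w') - J (x', w')) +
      (J (x', w') - J (x, w) - δ • ν (J (x, w)) g) - (J (y, w) - J (x, w)) -
        δ • (ν (J (y, w)) - ν (J (x, w))) g by simp [smul_sub]; abel]
    refine (norm_sub_le_of_le (norm_sub_le_of_le (norm_add_le_of_le a2 h4) a1) a4).trans ?_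
    linarith

lemma lip_ex {E F : Type} [NormedAddCommGroup E] [NormedSpace ℝ E] [NormedAddCommGroup F]
    [NormedSpace ℝ F] {f : E → F} {s : Set E} (hf : ContDiffOn ℝ ∞ f s) (hs : Convex ℝ s)
    (hc : IsCompact s) : ∃ K : ℝ, 0 ≤ K ∧ ∀ x ∈ s, ∀ y ∈ s, ‖f x - f y‖ ≤ K * ‖x - y‖ := by
  obtain ⟨K, hK⟩ := hf.exists_lipschitzOnWith (by simp) hs hc
  exact ⟨K, K.2, fun x hx y hy => by simpa [dist_eq_norm] using hK.dist_le_mul x hx y hy⟩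

end est

set_option maxHeartbeats 1600000 in
theorem noS (hN : NatS) (hF : FamS) (hB : B1S) (hT : TopS) : NoS := by
  intro P Y Z GI Gs Gu _ _ _ _ _ _ _ _ _ _ _ _ _ _ d a Ω U ι ζ ν Ψ z₀ hd hb
  have fr := hb.frs
  have ha := hd.a_pos
  have := hb.ns
  have := hb.nu
  obtain ⟨Dm, J, hJ⟩ := Fr.jf Z GI ι U fr.opn fr.sι fr.cι
  obtain ⟨hss, r₀, hr₀, hnat⟩ := hN P Y Z GI Gs Gu d a Ω U ι ζ ν Ψ z₀ hd hb Dm J hJ
  obtain ⟨ρ, hρ, hpol⟩ := hb.pol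
  obtain ⟨Kb, hKb, V, hV, hbil⟩ := hb.bil
  obtain ⟨r, hr, r1, r2, rU, rV⟩ : ∃ r > 0, r ≤ r₀ ∧ r ≤ ρ ∧ closedBall z₀ r ⊆ U ∧
      closedBall z₀ r ⊆ V := by
    obtain ⟨r', h0, h1⟩ := nhds_basis_closedBall.mem_iff.1 (inter_mem (fr.opn.mem_nhds hb.mem) hV)
    have e := (closedBall_subset_closedBall ((min_le_right r₀ _).trans (min_le_right ρ r'))).trans h1
    exact ⟨min r₀ (min ρ r'), by positivity, min_le_left _ _,
      (min_le_right _ _).trans (min_le_left _ _), e.trans inter_subset_left,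
      e.trans inter_subset_right⟩
  obtain ⟨K₁, T₁, nt⟩ := hnat r hr r1
  obtain ⟨K, K1, hK⟩ : ∃ K : ℝ, 1 ≤ K ∧ K₁ ≤ K := ⟨max K₁ 1, le_max_right _ _, le_max_left _ _⟩
  have z0 : z₀ ∈ ball z₀ r := mem_ball_self hr
  have bc : ∀ {y : Z}, y ∈ ball z₀ r → y ∈ closedBall z₀ r := fun h => ball_subset_closedBall h
  have dm : ∀ {y : Z} {v : GI}, y ∈ ball z₀ r → ‖v‖ ≤ r → (y, v) ∈ Dm := fun h h' =>
    nt.sub ⟨bc h, mem_closedBall_zero_iff.2 h'⟩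
  -- a long period
  obtain ⟨L, hL, g, hg, fix, hLT⟩ : ∃ L > 0, ∃ g ∈ d.Mv L, g (Ψ z₀) = Ψ z₀ ∧
      ∀ T, L ≤ T → T₁ ≤ T ∧ K * Real.exp (-(a * T)) ≤ 1 / 2 := by
    obtain ⟨T₀, h0, f, hf, e⟩ := hb.per
    obtain ⟨T', h'⟩ := eventually_atTop.1 ((eventually_ge_atTop T₁).and (ev_small ha K one_half_pos))
    obtain ⟨j, j1, j2⟩ := (((tendsto_natCast_atTop_atTop (R := ℝ)).atTop_mul_const h0).eventually
      ((eventually_ge_atTop T').and (eventually_gt_atTop 0))).exists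
    exact ⟨_, j2, _, hd.pow hf j, Equiv.Perm.pow_apply_eq_self_of_apply_eq_self e j,
      fun T hT => h' T (j1.trans hT)⟩
  have nat : ∀ T, L ≤ T → ∀ f ∈ d.Mv T, ∀ y ∈ ball z₀ r, ∀ y' ∈ ball z₀ r, f (Ψ y) = Ψ y' →
      ∃ A : GI →L[ℝ] GI, Function.Injective A ∧ (∀ v, ‖A v‖ ≤ K * Real.exp (-(a * T)) * ‖v‖) ∧
      (∀ v, ‖A v‖ ≤ 1 / 2 * ‖v‖) ∧ ∀ w, ‖w‖ < r → f (Ψ (J (y, w))) = Ψ (J (y', A w)) ∧
        ∀ v, Tan ι ζ J y' (A w) (A v) → Tan ι ζ J y w v := by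
    intro T hT f hf y hy y' hy' e
    obtain ⟨A, a1, a2, a3⟩ := nt.nat T (hLT T hT).1 f hf y hy y' hy' e
    have a4 : ∀ v, ‖A v‖ ≤ K * Real.exp (-(a * T)) * ‖v‖ := fun v => (a2 v).trans (by gcongr)
    exact ⟨A, a1, a4, fun v => (a4 v).trans (by gcongr; exact (hLT T hT).2), a3⟩
  have per := fun (j : ℕ) (hj : 1 ≤ j) => nat (j * L)
    (le_mul_of_one_le_left hL.le (by exact_mod_cast hj)) _ (hd.pow hg j) z₀ z0 z₀ z0
    (Equiv.Perm.pow_apply_eq_self_of_apply_eq_self fix j)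
  -- the polynomial arc
  obtain ⟨A₁, i1, -, i2, i3⟩ := per 1 le_rfl
  obtain ⟨N, p, pp, p0, p1, pt⟩ := hB Z GI Gs Gu Ω U ι ζ ν Dm J z₀ A₁ r fr hJ hb.mem hr i1 i2
    fun w v hw => (i3 w hw).2 v
  obtain ⟨m, ε₀, hm, hε₀, hfar⟩ : ∃ m ε₀ : ℝ, 0 < m ∧ 0 < ε₀ ∧
      ∀ τ, dist τ 1 < ε₀ → m < dist (Ψ (J (z₀, p τ))) (Ψ z₀) := by
    have q1 := (pt 1 ⟨zero_le_one, le_rfl⟩).1
    have ne : Ψ (J (z₀, p 1)) ≠ Ψ z₀ := fun e => p1 (nt.inj (mem_ball_zero_iff.2 q1)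
      (mem_ball_self hr) (by simp only [e, hJ.init z₀ hb.mem]))
    have c1 : ContinuousAt (fun τ => dist (Ψ (J (z₀, p τ))) (Ψ z₀)) 1 :=
      (ContinuousAt.comp (f := fun τ => J (z₀, p τ))
        (hb.cont.continuousAt (fr.opn.mem_nhds (hJ.mem _ (dm z0 q1.le))))
        (ContinuousAt.comp (f := fun τ => (z₀, p τ))
          (hJ.sm.continuousOn.continuousAt (hJ.op.mem_nhds (dm z0 q1.le)))
          (continuousAt_const.prodMk pp.diff.continuous.continuousAt))).dist continuousAt_const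
    have h0 := dist_pos.2 ne
    obtain ⟨ε₀, e0, e1⟩ := Metric.eventually_nhds_iff.1
      (c1.eventually (lt_mem_nhds (half_lt_self h0)))
    exact ⟨_, ε₀, half_pos h0, e0, fun τ h => e1 h⟩
  -- the front curve
  obtain ⟨ρ₁, hρ₁, hopn⟩ := Metric.mem_nhds_iff.1 (hb.opn _ (ball_mem_nhds z₀ hr))
  obtain ⟨r₂, hr₂, s1, s2⟩ : ∃ r₂ > 0, r₂ ≤ r / 2 ∧ Kb * r₂ ≤ ρ₁ / 2 :=
    ⟨min (r / 2) (ρ₁ / 2 / Kb), by positivity, min_le_left _ _,
      (le_div_iff₀' hKb).1 (min_le_right _ _)⟩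
  obtain ⟨g₀, hg₀⟩ := exists_ne (0 : Gu)
  obtain ⟨t₁, x, ht₁, x0, dx, xm, fam⟩ := hF Z GI Gs Gu Ω U ι ζ ν Dm J z₀ g₀ r₂ fr hJ hb.mem hr₂
  have xr : ∀ t ∈ Icc 0 t₁, x t ∈ ball z₀ r := fun t ht =>
    ball_subset_ball (by linarith) (xm t ht)
  obtain ⟨ts, tne, ts0, ts1⟩ := ((hb.trv x g₀ hg₀ x0 dx).and_eventually (Ioc_mem_nhdsGT ht₁)).exists
  obtain ⟨R, ρf, hρf, hfin⟩ := hd.ending tne
  obtain ⟨ρ₂, hρ₂, hend⟩ := Metric.eventually_nhds_iff.1 ((hb.cont.continuousAt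
    (fr.opn.mem_nhds (rU (bc (xr ts ⟨ts0.le, ts1⟩))))).eventually hfin)
  obtain ⟨Kc, hKc, hcs⟩ := hd.cs R
  obtain ⟨n, n1, n2⟩ : ∃ n : ℕ, 1 ≤ n ∧ Kc * |R| * Real.exp (-(a * (n * L))) ≤ m :=
    ((eventually_ge_atTop 1).and (((tendsto_natCast_atTop_atTop (R := ℝ)).atTop_mul_const
      hL).eventually (ev_small ha _ hm))).exists
  obtain ⟨An, j1, j2, j3, j4⟩ := per n n1
  obtain ⟨B, hB'⟩ : ∃ B : GI →L[ℝ] GI, ∀ v, An (B v) = v :=
    ⟨(ContinuousLinearEquiv.ofBijective An (LinearMap.ker_eq_bot.2 j1) (LinearMap.range_eq_top.2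
      (LinearMap.injective_iff_surjective.1 j1))).symm, fun v =>
      ContinuousLinearEquiv.ofBijective_apply_symm_apply _ _ _ v⟩
  obtain ⟨τ₀, C₀, w, hτ₀, τ1, w0, hw⟩ := fam N (fun τ => B (p τ)) (pp.clm B) (by simp [p0]) (by
    have c1 : ContinuousAt (fun τ => ‖B (p τ)‖) 0 :=
      (pp.clm B).diff.continuous.continuousAt.norm
    filter_upwards [Icc_mem_nhdsGE zero_lt_one, mem_nhdsWithin_of_mem_nhds
      (c1.eventually (gt_mem_nhds (by simpa [p0] using hr)))] with τ h1 h2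
    refine (j4 _ h2).2 _ ?_
    rw [show deriv (fun τ => B (p τ)) τ = B (deriv p τ) from
      (B.hasFDerivAt.comp_hasDerivAt τ (pp.diff τ).hasDerivAt).deriv, hB', hB']
    exact (pt τ h1).2)
  obtain ⟨C, C0, hC⟩ : ∃ C : ℝ, 0 ≤ C ∧ C₀ ≤ C := ⟨|C₀|, abs_nonneg _, le_abs_self _⟩
  obtain ⟨W, W0, hW⟩ : ∃ W : ℝ, 0 ≤ W ∧ ∀ t ∈ Icc 0 t₁, ∀ τ ∈ Icc (0 : ℝ) 1, ‖w t τ‖ ≤ W :=
    ⟨_, by positivity, fun t ht => (hw t ht).1.remez hτ₀ τ1 fun τ hτ => ((hw t ht).2.2 τ hτ).1.le⟩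
  obtain ⟨b, htop⟩ := hT Z GI Dm J z₀ r (K * K * W) N hJ.op hJ.sm nt.sub
  obtain ⟨Kn, s₀, hKn, hnode⟩ := hd.node (Ψ z₀) _ (hb.opn _ (ball_mem_nhds z₀ (half_pos hr)))
  obtain ⟨KJ, KJ0, hKJ⟩ := lip_ex (hJ.sm.mono nt.sub)
    ((convex_closedBall _ _).prod (convex_closedBall _ _))
    ((isCompact_closedBall _ _).prod (isCompact_closedBall _ _))
  obtain ⟨Kν, Kν0, hKν⟩ := lip_ex (fr.sν.mono rU) (convex_closedBall _ _) (isCompact_closedBall _ _)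
  obtain ⟨M, M1, M2, M3, M4⟩ : ∃ M : ℝ, t₁ ≤ M ∧ |s₀| + L ≤ M ∧ KJ * (C + 2 * (Kb * Kn)) ≤ M ∧
      2 * KJ * (Kb * Kn) + C + Kν * KJ * (Kb * Kn) * ‖g₀‖ ≤ M :=
    ⟨max (max _ _) (max _ _), (le_max_left _ _).trans (le_max_left _ _),
      (le_max_right _ _).trans (le_max_left _ _), (le_max_left _ _).trans (le_max_right _ _),
      (le_max_right _ _).trans (le_max_right _ _)⟩
  clear hN hF hB hT hnat fam hLT i1 i2 i3 hfin nt
  replace hpol := hpol r r2 rU τ₀ (a / 2) (a / (N + 1)) M (min (ε₀ / 2) ρf) b hτ₀ τ1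
    (by positivity) (by positivity) (by positivity)
  obtain ⟨T₀, hpol⟩ := hpol
  -- the scale
  obtain ⟨T, ⟨⟨e1, e2⟩, e3, e4⟩, ⟨e5, e6⟩, e7⟩ := ((((eventually_ge_atTop T₀).and
    (eventually_ge_atTop ((n + 1) * L))).and ((ev_small ha Kn (show 0 < ρ₁ / 4 by positivity)).and
      (ev_small ha (K * K * W) hr))).and (((ev_small ha (KJ * (K * K * W)) (half_pos hr)).and
        (ev_small ha (KJ * (Kb * Kn)) (half_pos hr))).and
        (ev_small (half_pos ha) (Kb * Kn + C) (half_pos hρ₂)))).exists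
  have nL : 0 ≤ n * L := by positivity
  have LT : L ≤ T := by linarith
  have T0 : 0 ≤ T := by linarith
  obtain ⟨δ, hδ⟩ : ∃ δ, δ = Real.exp (-(a / 2 * T)) := ⟨_, rfl⟩
  have δ0 : 0 < δ := hδ ▸ Real.exp_pos _
  have δ1 : δ ≤ 1 := hδ ▸ Real.exp_le_one_iff.2 (neg_nonpos.2 (by positivity))
  have δ2 : Real.exp (-(a * T)) = δ ^ 2 := by rw [hδ, ← Real.exp_nat_mul]; congr 1; push_cast; ring
  rw [δ2] at e3 e4 e5 e6
  rw [← hδ] at e7
  have mono : ∀ t, T ≤ t → Real.exp (-(a * t)) ≤ δ ^ 2 := fun t ht =>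
    δ2 ▸ Real.exp_le_exp.2 (neg_le_neg (mul_le_mul_of_nonneg_left ht ha.le))
  obtain ⟨k, k1, k2⟩ : ∃ k : ℕ, k * δ ≤ ts ∧ ts ≤ k * δ + δ :=
    ⟨⌊ts / δ⌋₊, (le_div_iff₀ δ0).1 (Nat.floor_le (by positivity)), by
      have := (div_lt_iff₀ δ0).1 (Nat.lt_floor_add_one (ts / δ)); linarith⟩
  have ti : ∀ i : ℕ, i ≤ k → (i : ℝ) * δ ∈ Icc 0 t₁ := fun i hi => ⟨by positivity,
    (mul_le_mul_of_nonneg_right (by exact_mod_cast hi) δ0.le).trans (k1.trans ts1)⟩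
  -- the nodes
  have hnd : ∀ i : ℕ, ∃ (y y' : Z) (f : Equiv.Perm P) (t : ℝ) (A : GI →L[ℝ] GI), i ≤ k →
      (y ∈ ball z₀ r ∧ ‖y - x (i * δ)‖ ≤ Kb * Kn * δ ^ 2 ∧ y' ∈ ball z₀ (r / 2) ∧ f ∈ d.Mv t ∧
        |t - T| ≤ M ∧ (∀ v, ‖A v‖ ≤ K * K * δ ^ 2 * ‖v‖) ∧
        ∀ v, ‖v‖ < r → f (Ψ (J (y, v))) = Ψ (J (y', A v))) ∧
      (i = 0 → y = z₀ ∧ ∀ τ ∈ Icc (0 : ℝ) 1,
        f⁻¹ (Ψ (J (y', A (B (p τ))))) = (g ^ n)⁻¹ (Ψ (J (z₀, p τ)))) := by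
    intro i
    by_cases hi : i ≤ k
    swap
    · exact ⟨z₀, z₀, 1, 0, 0, fun h => (hi h).elim⟩
    rcases Nat.eq_zero_or_pos i with rfl | i0
    · have c1 : T ≤ ⌈T / L⌉₊ * L := (div_le_iff₀ hL).1 (Nat.le_ceil _)
      have c2 : ⌈T / L⌉₊ * L ≤ T + L := by
        have := mul_le_mul_of_nonneg_right (Nat.ceil_lt_add_one (show 0 ≤ T / L by positivity)).le
          hL.le
        rwa [add_mul, div_mul_cancel₀ _ hL.ne', one_mul] at this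
      obtain ⟨j, hj⟩ := Nat.exists_eq_add_of_le (show n + 1 ≤ ⌈T / L⌉₊ by
        exact_mod_cast le_of_mul_le_mul_right (e2.trans c1) hL)
      rw [hj] at c1 c2
      push_cast at c1 c2
      obtain ⟨A, -, a2, -, a4⟩ := per (j + 1) (by omega)
      refine ⟨z₀, z₀, g ^ (j + 1) * g ^ n, _, A ∘L An, fun _ => ⟨⟨z0, by simp [x0]; positivity,
        mem_ball_self (half_pos hr), hd.mul _ _ _ (hd.pow hg _) _ (hd.pow hg _), ?_, fun v => ?_,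
        fun v hv => ?_⟩, fun _ => ⟨rfl, fun τ hτ => ?_⟩⟩⟩
      · push_cast
        rw [abs_le]; constructor <;> linarith [abs_nonneg s₀]
      · refine (a2 _).trans ((mul_le_mul_of_nonneg_left (j2 v) (by positivity)).trans ?_)
        have := mono ((j + 1 : ℕ) * L + n * L) (by push_cast; linarith)
        rw [mul_add, neg_add, Real.exp_add] at this
        linarith only [mul_le_mul_of_nonneg_left this (show 0 ≤ K * K * ‖v‖ by positivity)]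
      · rw [Equiv.Perm.mul_apply, (j4 v hv).1,
          (a4 _ ((j3 v).trans_lt (by linarith [norm_nonneg v]))).1]
        rfl
      · rw [ContinuousLinearMap.comp_apply, hB', ← (a4 _ (pt τ hτ).1).1, mul_inv_rev,
          Equiv.Perm.mul_apply, pinv]
    · obtain ⟨q, q1, t, ⟨t1, t2⟩, f, hf, y', hy', e⟩ := hnode (Ψ (x (i * δ))) T T0
      rw [δ2] at q1
      have b1 := (hbil _ (rV (bc (xr _ (ti i hi)))) _ (rV (bc z0))).1
      have b2 := mul_le_mul_of_nonneg_left (mem_ball_iff_norm.1 (xm _ (ti i hi))).le hKb.le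
      obtain ⟨y, hy, rfl⟩ := hopn (show q ∈ ball (Ψ z₀) ρ₁ by
        rw [mem_ball]
        linarith [dist_triangle_left q (Ψ z₀) (Ψ (x (i * δ)))])
      obtain ⟨A, -, a2, -, a4⟩ := nat t (LT.trans t1) f hf y hy y'
        (ball_subset_ball (by linarith) hy') e.symm
      refine ⟨y, y', f, t, A, fun _ => ⟨⟨hy, ?_, hy', hf, ?_, fun v => (a2 v).trans ?_,
        fun v hv => (a4 v hv).1⟩, fun h => by omega⟩⟩
      · rw [norm_sub_rev, mul_assoc]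
        exact (hbil _ (rV (bc (xr _ (ti i hi)))) _ (rV (bc hy))).2.trans (by gcongr)
      · rw [abs_le]; constructor <;> linarith [le_abs_self s₀, abs_nonneg s₀]
      · exact mul_le_mul_of_nonneg_right (mul_le_mul (le_mul_of_one_le_left (by positivity) K1)
          (mono t t1) (Real.exp_pos _).le (by positivity)) (norm_nonneg _)
  choose y y' f t A hnd using hnd
  have kn : ∀ i ≤ k, ∀ τ ∈ Icc 0 τ₀, ‖w (i * δ) τ‖ < r ∧ J (y i, w (i * δ) τ) ∈ closedBall z₀ r ∧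
      (f i)⁻¹ (Ψ (J (y' i, A i (w (i * δ) τ)))) = Ψ (J (y i, w (i * δ) τ)) := by
    intro i hi τ hτ
    obtain ⟨⟨a1, a2, -, -, -, -, a7⟩, -⟩ := hnd i hi
    obtain ⟨b1, b2, -⟩ := (hw _ (ti i hi)).2.2 τ hτ
    have b3 : ‖w (i * δ) τ‖ < r := by linarith
    refine ⟨b3, ?_, by rw [← a7 _ b3, pinv]⟩
    have b4 := hKJ (_, _) ⟨bc a1, mem_closedBall_zero_iff.2 b3.le⟩ (_, _)
      ⟨bc (xr _ (ti i hi)), mem_closedBall_zero_iff.2 b3.le⟩
    rw [norm_pair] at b4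
    rw [mem_ball_iff_norm] at b2
    rw [mem_closedBall_iff_norm]
    have b5 := mul_le_mul_of_nonneg_left a2 KJ0
    linarith [norm_sub_le_norm_sub_add_norm_sub (J (y i, w (i * δ) τ)) (J (x (i * δ), w (i * δ) τ)) z₀]
  have c0 : ∀ i ≤ k, (f i)⁻¹ (Ψ (J (y' i, A i (w (i * δ) 0)))) = Ψ (y i) := fun i hi => by
    rw [(kn i hi 0 ⟨le_rfl, hτ₀.le⟩).2.2, (hw _ (ti i hi)).2.1,
      hJ.init _ (rU (bc (hnd i hi).1.1))]
  have sm : ∀ i ≤ k, ∀ τ ∈ Icc (0 : ℝ) 1, ‖A i (w (i * δ) τ)‖ ≤ K * K * W * δ ^ 2 := by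
    intro i hi τ hτ
    refine ((hnd i hi).1.2.2.2.2.2.1 _).trans ?_
    linarith only [mul_le_mul_of_nonneg_left (hW _ (ti i hi) τ hτ)
      (show 0 ≤ K * K * δ ^ 2 by positivity)]
  have yr : ∀ i ≤ k, y' i ∈ ball z₀ r := fun i hi =>
    ball_subset_ball (by linarith) (hnd i hi).1.2.2.1
  have ss : ∀ i ≤ k, ∀ τ ∈ Icc (0 : ℝ) 1, d.Ss ((f i)⁻¹ (Ψ (J (y' i, A i (w (i * δ) 0)))))
      ((f i)⁻¹ (Ψ (J (y' i, A i (w (i * δ) τ))))) := fun i hi τ hτ =>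
    hd.ss _ _ (hd.inv _ _ (hnd i hi).1.2.2.2.1) _ _
      ((hss _ (dm (yr i hi) ((sm i hi 0 ⟨le_rfl, zero_le_one⟩).trans e4))).symm.trans
        (hss _ (dm (yr i hi) ((sm i hi τ hτ).trans e4))))
  obtain ⟨τ, hτ, τ2, T', F, hF', hdist⟩ := hpol T e1 k f t
    (fun i τ => (f i)⁻¹ (Ψ (J (y' i, A i (w (i * δ) τ))))) (fun i τ => J (y' i, A i (w (i * δ) τ)))
    (fun i τ => J (y i, w (i * δ) τ)) (by rw [← hδ]; linarith) (fun i hi => by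
      obtain ⟨⟨-, -, a3, a4, a5, -, -⟩, -⟩ := hnd i hi
      refine ⟨a4, a5, fun τ hτ => ⟨ss i hi τ hτ, ?_, pinv' _ _, ?_⟩,
        fun τ hτ => (kn i hi τ hτ).2⟩
      · have b4 := hKJ (_, _) ⟨bc (yr i hi), mem_closedBall_zero_iff.2 ((sm i hi τ hτ).trans e4)⟩
          (_, 0) ⟨bc (yr i hi), mem_closedBall_self hr.le⟩
        rw [hJ.init _ (rU (bc (yr i hi)))] at b4
        simp only [Prod.mk_sub_mk, sub_self, sub_zero, Prod.norm_mk, norm_zero, norm_nonneg,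
          max_eq_right] at b4
        rw [mem_ball_iff_norm] at a3
        rw [mem_closedBall_iff_norm]
        have b5 := mul_le_mul_of_nonneg_left (sm i hi τ hτ) KJ0
        linarith [norm_sub_le_norm_sub_add_norm_sub (J (y' i, A i (w (i * δ) τ))) (y' i) z₀]
      · refine htop _ (y' i) _ (Real.exp_pos _) (Real.exp_le_one_iff.2 (neg_nonpos.2 (by positivity)))
          (bc (yr i hi)) ((hw _ (ti i hi)).1.clm (A i)) (fun τ hτ => ⟨(sm i hi τ hτ).trans ?_,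
            (sm i hi τ hτ).trans e4⟩) τ hτ
        rw [← δ2, ← Real.exp_nat_mul]
        gcongr
        have : (N : ℝ) * (a / (N + 1) * T) ≤ a * T := by
          rw [← mul_assoc, ← mul_div_assoc]
          gcongr
          rw [div_le_iff₀ (by positivity)]; linarith only [ha]
        linarith) (fun i hi τ hτ => by
      obtain ⟨⟨a1, a2, -⟩, -⟩ := hnd i hi.le
      obtain ⟨⟨a1', a2', -⟩, -⟩ := hnd (i + 1) hi
      obtain ⟨-, b2, b3⟩ := (hw _ (ti i hi.le)).2.2 τ hτ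
      obtain ⟨b4, b5⟩ := b3 _ (ti (i + 1) hi)
      rw [show ((i + 1 : ℕ) : ℝ) * δ - i * δ = δ by push_cast; ring] at b4 b5
      rw [abs_of_pos δ0] at b4
      obtain ⟨c1, c2⟩ := nb_est KJ0 Kν0 hKJ hKν g₀ (by positivity) (bc a1) (bc a1')
        (bc (xr _ (ti i hi.le))) (bc (xr _ (ti (i + 1) hi)))
        (mem_closedBall_zero_iff.2 (kn i hi.le τ hτ).1.le)
        (mem_closedBall_zero_iff.2 (kn (i + 1) hi τ hτ).1.le) (kn i hi.le τ hτ).2.1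
        (bc (ball_subset_ball (by linarith) b2)) δ0.le δ1 a2 a2'
        (b4.trans (mul_le_mul_of_nonneg_right hC δ0.le))
        (b5.trans (mul_le_mul_of_nonneg_right hC (sq_nonneg δ)))
      rw [← hδ]
      exact ⟨c1.trans (mul_le_mul_of_nonneg_right M3 δ0.le), _,
        c2.trans (mul_le_mul_of_nonneg_right M4 (sq_nonneg δ))⟩)
  -- the end
  obtain ⟨y0, e0⟩ := (hnd 0 (Nat.zero_le k)).2 rfl
  have s0 := ss 0 (Nat.zero_le k) τ hτ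
  have sk := ss k le_rfl τ hτ
  rw [c0 0 (Nat.zero_le k), y0] at s0
  rw [c0 k le_rfl] at sk
  have near : dist (y k) (x ts) < ρ₂ := by
    have b1 := (((hw _ (ti k le_rfl)).2.2 0 ⟨le_rfl, hτ₀.le⟩).2.2 ts ⟨ts0.le, ts1⟩).1
    have b2 := (norm_fst_le _).trans b1
    rw [abs_of_nonneg (by linarith)] at b2
    have b3 : C₀ * (ts - k * δ) ≤ C * δ := mul_le_mul hC (by linarith) (by linarith) C0
    have b4 := (hnd k le_rfl).1.2.1
    have b5 : Kb * Kn * δ ^ 2 ≤ Kb * Kn * δ :=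
      mul_le_mul_of_nonneg_left (pow_le_of_le_one δ0.le δ1 two_ne_zero) (by positivity)
    rw [dist_eq_norm]
    simp only [Prod.fst_sub] at b2
    rw [norm_sub_rev] at b2
    linarith [norm_sub_le_norm_sub_add_norm_sub (y k) (x (k * δ)) (x ts)]
  have hR := hend near _ _ s0 sk ⟨T', F, hF', hdist.trans (min_le_right _ _)⟩
  have fin := hcs _ nL _ (hd.pow hg n) _ _ s0.symm hR
  simp only [Nat.cast_zero, zero_mul, w0] at fin hR
  rw [e0 τ hτ] at fin hR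
  rw [pinv', Equiv.Perm.pow_apply_eq_self_of_apply_eq_self fix n] at fin
  have far := hfar τ (by
    rw [Real.dist_eq, abs_lt]; constructor <;> linarith [min_le_left (ε₀ / 2) ρf, hτ.2])
  linarith only [far, fin, n2, mul_le_mul_of_nonneg_left (hR.trans (le_abs_self R))
    (show 0 ≤ Kc * Real.exp (-(a * (n * L))) by positivity)]

end Crest.Agent.N221.NB
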