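import Crest.Agent.N221.NB.Cv

/-! Row 221, block NB: the angle between a vector and the span of a tuple is a ratio of two
polynomials (`Gr`, `exists_gr`); propagation of a small angle (`angle`). -/

set_option autoImplicit false

open Set Metric Filter Matrix
open scoped ContDiff Topology RealInnerProductSpace

namespace Crest.Agent.N221.NB

variable {κ : Type} [Fintype κ]

/-- `g` = Gram determinant of the tuple, `P U N = g N • (U - proj U)` -/
structure Gr {E : Type} [NormedAddCommGroup E] [NormedSpace ℝ E] (g : (κ → E) → ℝ)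
    (P : E → (κ → E) → E) (C : ℝ) : Prop where
  one : 1 ≤ C
  sg : ContDiff ℝ ∞ g
  sP : ContDiff ℝ ∞ fun p : E × (κ → E) => P p.1 p.2
  hg : ∀ (c : ℝ) N, g (c • N) = c ^ (2 * Fintype.card κ) * g N
  hP : ∀ (c : ℝ) U N, P (c • U) (c • N) = c ^ (2 * Fintype.card κ + 1) • P U N
  nn : ∀ N, 0 ≤ g N
  near : ∀ U N, ∀ y ∈ Submodule.span ℝ (range N), ‖P U N‖ ≤ C * g N * ‖U - y‖
  mem : ∀ U N, g N • U - P U N ∈ Submodule.span ℝ (range N)
  low : ∀ N (μ : ℝ), 0 ≤ μ → (∀ c : κ → ℝ, μ * ‖c‖ ≤ ‖∑ j, c j • N j‖) →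
    μ ^ (2 * Fintype.card κ) ≤ C * g N

theorem contDiff_det [DecidableEq κ] {X : Type} [NormedAddCommGroup X] [NormedSpace ℝ X]
    {M : X → Matrix κ κ ℝ} (h : ∀ i j, ContDiff ℝ ∞ fun x => M x i j) :
    ContDiff ℝ ∞ fun x => (M x).det := by
  simp only [det_apply, Units.smul_def, zsmul_eq_mul]
  exact ContDiff.sum fun σ _ => contDiff_const.mul (contDiff_prod fun i _ => h _ _)

theorem gr_inner {H : Type} [NormedAddCommGroup H] [InnerProductSpace ℝ H] :
    ∃ (g : (κ → H) → ℝ) (P : H → (κ → H) → H) (C : ℝ), Gr g P C := by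
  classical
  refine ⟨fun N => (gram ℝ N).det,
    fun U N => (gram ℝ N).det • U - ∑ j, cramer (gram ℝ N) (fun i => ⟪N i, U⟫) j • N j,
    ((Fintype.card κ : ℝ) + 1) ^ Fintype.card κ, ?_⟩
  have hone : (1 : ℝ) ≤ ((Fintype.card κ : ℝ) + 1) ^ Fintype.card κ :=
    one_le_pow₀ (by have : (0 : ℝ) ≤ Fintype.card κ := by positivity
                    linarith)
  have hsc : ∀ (c : ℝ) (N : κ → H), gram ℝ (c • N) = (c ^ 2) • gram ℝ N := by
    intro c N; ext i j
    simp [gram_apply, inner_smul_left, inner_smul_right]; ring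
  have hg : ∀ (c : ℝ) (N : κ → H),
      (gram ℝ (c • N)).det = c ^ (2 * Fintype.card κ) * (gram ℝ N).det := by
    intro c N; rw [hsc, det_smul, pow_mul]
  have nn : ∀ N : κ → H, 0 ≤ (gram ℝ N).det := fun N => (posSemidef_gram ℝ N).det_nonneg
  refine ⟨hone, contDiff_det fun i j => ?_, ?_, hg, ?_, nn, ?_, ?_, ?_⟩
  · simp only [gram_apply]
    exact (contDiff_apply ℝ H i).inner ℝ (contDiff_apply ℝ H j)
  · have e : ∀ i, ContDiff ℝ ∞ fun p : H × (κ → H) => p.2 i := fun i => by fun_prop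
    refine ((contDiff_det fun i j => ?_).smul contDiff_fst).sub
      (ContDiff.sum fun j _ => ContDiff.smul ?_ (e j))
    · simp only [gram_apply]; exact (e i).inner ℝ (e j)
    · simp only [cramer_apply]
      refine contDiff_det fun i l => ?_
      simp only [updateCol_apply, gram_apply]
      split_ifs
      · exact (e i).inner ℝ contDiff_fst
      · exact (e i).inner ℝ (e l)
  · intro c U N
    have e : ∀ j, cramer (gram ℝ (c • N)) (fun i => ⟪(c • N) i, c • U⟫) j
        = c ^ (2 * Fintype.card κ) * cramer (gram ℝ N) (fun i => ⟪N i, U⟫) j := by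
      intro j
      rw [cramer_apply, cramer_apply, pow_mul, ← det_smul]
      congr 1; ext i l
      simp only [updateCol_apply, gram_apply, Matrix.smul_apply, Pi.smul_apply, inner_smul_left,
        inner_smul_right, smul_eq_mul, conj_trivial]
      split_ifs <;> ring
    simp only [e, hg]
    simp only [smul_sub, Finset.smul_sum, smul_smul, Pi.smul_apply]
    congr 1
    · congr 1; ring
    · exact Finset.sum_congr rfl fun j _ => by congr 1; ring
  · intro U N y hy
    set P := (gram ℝ N).det • U - ∑ j, cramer (gram ℝ N) (fun i => ⟪N i, U⟫) j • N j with hP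
    have h1 : ∀ i, ⟪N i, P⟫ = 0 := by
      intro i
      have := congrFun (mulVec_cramer (gram ℝ N) fun i => ⟪N i, U⟫) i
      simp only [mulVec, dotProduct, gram_apply, Pi.smul_apply, smul_eq_mul] at this
      rw [hP, inner_sub_right, inner_smul_right, inner_sum, ← this]
      simp only [inner_smul_right]
      rw [sub_eq_zero]
      exact Finset.sum_congr rfl fun j _ => mul_comm _ _
    have h2 : ∀ z ∈ Submodule.span ℝ (range N), ⟪z, P⟫ = 0 := by
      intro z hz
      obtain ⟨c, rfl⟩ := (Submodule.mem_span_range_iff_exists_fun ℝ).1 hz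
      simp [sum_inner, inner_smul_left, h1]
    have h3 : ‖P‖ * ‖P‖ = (gram ℝ N).det * ⟪U - y, P⟫ := by
      rw [← real_inner_self_eq_norm_mul_norm, inner_sub_left U, h2 y hy, sub_zero]
      nth_rewrite 1 [hP]
      rw [inner_sub_left, inner_smul_left, sum_inner]
      simp [inner_smul_left, h1]
    have h4 : ‖P‖ * ‖P‖ ≤ (gram ℝ N).det * ‖U - y‖ * ‖P‖ := by
      rw [h3, mul_assoc]; exact mul_le_mul_of_nonneg_left (real_inner_le_norm _ _) (nn N)
    have h5 : ‖P‖ ≤ (gram ℝ N).det * ‖U - y‖ := by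
      rcases (norm_nonneg P).eq_or_lt with h | h
      · rw [← h]; exact mul_nonneg (nn N) (norm_nonneg _)
      · exact le_of_mul_le_mul_right h4 h
    refine h5.trans ?_
    rw [mul_assoc]
    exact le_mul_of_one_le_left (mul_nonneg (nn N) (norm_nonneg _)) hone
  · intro U N
    rw [sub_sub_cancel]
    exact (Submodule.mem_span_range_iff_exists_fun ℝ).2 ⟨_, rfl⟩
  · intro N μ hμ h
    have hA := isHermitian_gram ℝ N
    have h1 : ∀ i, μ ^ 2 ≤ ((Fintype.card κ : ℝ) + 1) * hA.eigenvalues i := by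
      intro i
      set v := hA.eigenvectorBasis i
      have a1 : hA.eigenvalues i = ‖∑ j, v j • N j‖ ^ 2 := by
        rw [hA.eigenvalues_eq i, star_dotProduct_gram_mulVec, real_inner_self_eq_norm_sq]; rfl
      have a2 : (1 : ℝ) ≤ Fintype.card κ * ‖v.ofLp‖ ^ 2 := by
        have b1 : ‖v‖ = 1 := hA.eigenvectorBasis.orthonormal.1 i
        have b2 := EuclideanSpace.real_norm_sq_eq v
        rw [b1, one_pow] at b2
        rw [b2, ← nsmul_eq_mul, ← Finset.card_univ, ← Finset.sum_const]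
        refine Finset.sum_le_sum fun j _ => ?_
        rw [← sq_abs]
        exact pow_le_pow_left₀ (abs_nonneg _) (norm_le_pi_norm v.ofLp j) 2
      have a3 : (μ * ‖v.ofLp‖) ^ 2 ≤ ‖∑ j, v j • N j‖ ^ 2 :=
        pow_le_pow_left₀ (by positivity) (h v.ofLp) 2
      rw [a1]
      have a4 : (0 : ℝ) ≤ Fintype.card κ := by positivity
      have a5 := mul_le_mul_of_nonneg_left a3 a4
      nlinarith [sq_nonneg μ, sq_nonneg ‖∑ j, v j • N j‖]
    rw [hA.det_eq_prod_eigenvalues, pow_mul, ← Finset.card_univ, ← Finset.prod_const,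
      ← Finset.prod_const, ← Finset.prod_mul_distrib]
    exact Finset.prod_le_prod (fun _ _ => sq_nonneg μ) fun i _ => by simpa using h1 i

theorem exists_gr (κ E : Type) [Fintype κ] [NormedAddCommGroup E] [NormedSpace ℝ E]
    [FiniteDimensional ℝ E] : ∃ (g : (κ → E) → ℝ) (P : E → (κ → E) → E) (C : ℝ), Gr g P C := by
  obtain ⟨g, P, C, h⟩ := gr_inner (κ := κ) (H := EuclideanSpace ℝ (Fin (Module.finrank ℝ E)))
  set L : E ≃L[ℝ] EuclideanSpace ℝ (Fin (Module.finrank ℝ E)) := toEuclidean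
  set a := ‖L.toContinuousLinearMap‖ + 1 with ha
  set b := ‖L.symm.toContinuousLinearMap‖ + 1 with hb
  have ha1 : 1 ≤ a := by have := norm_nonneg L.toContinuousLinearMap; linarith
  have hb1 : 1 ≤ b := by have := norm_nonneg L.symm.toContinuousLinearMap; linarith
  have hLa : ∀ x, ‖L x‖ ≤ a * ‖x‖ := fun x => (L.toContinuousLinearMap.le_opNorm x).trans
    (mul_le_mul_of_nonneg_right (by linarith) (norm_nonneg _))
  have hLb : ∀ x, ‖L.symm x‖ ≤ b * ‖x‖ := fun x => (L.symm.toContinuousLinearMap.le_opNorm x).trans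
    (mul_le_mul_of_nonneg_right (by linarith) (norm_nonneg _))
  have hC := h.one
  have hbk : 1 ≤ b ^ (2 * Fintype.card κ) := one_le_pow₀ hb1
  have sL : ContDiff ℝ ∞ fun (N : κ → E) j => L (N j) :=
    contDiff_pi.2 fun j => L.contDiff.comp (contDiff_apply ℝ E j)
  have hs : ∀ (c : ℝ) (N : κ → E), (fun j => L ((c • N) j)) = c • fun j => L (N j) := by
    intro c N; ext1 j; simp
  refine ⟨fun N => g fun j => L (N j), fun U N => L.symm (P (L U) fun j => L (N j)),
    C * (a * b * b ^ (2 * Fintype.card κ)), one_le_mul_of_one_le_of_one_le hC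
      (one_le_mul_of_one_le_of_one_le (one_le_mul_of_one_le_of_one_le ha1 hb1) hbk),
    h.sg.comp sL, L.symm.contDiff.comp (h.sP.comp ((L.contDiff.comp contDiff_fst).prodMk
      (sL.comp contDiff_snd))), fun c N => by rw [hs, h.hg], fun c U N => by
      rw [hs, map_smul, h.hP, map_smul], fun N => h.nn _, ?_, ?_, ?_⟩
  · intro U N y hy
    obtain ⟨c, rfl⟩ := (Submodule.mem_span_range_iff_exists_fun ℝ).1 hy
    have h1 := h.near (L U) (fun j => L (N j)) (L (∑ j, c j • N j))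
      ((Submodule.mem_span_range_iff_exists_fun ℝ).2 ⟨c, by simp⟩)
    rw [← map_sub] at h1
    have h0 := h.nn fun j => L (N j)
    calc _ ≤ b * (C * g (fun j => L (N j)) * (a * ‖U - ∑ j, c j • N j‖)) :=
          (hLb _).trans (mul_le_mul_of_nonneg_left (h1.trans
            (mul_le_mul_of_nonneg_left (hLa _) (by positivity))) (by positivity))
      _ = C * (a * b * 1) * g (fun j => L (N j)) * ‖U - ∑ j, c j • N j‖ := by ring
      _ ≤ _ := by gcongr
  · intro U N
    obtain ⟨c, hc⟩ := (Submodule.mem_span_range_iff_exists_fun ℝ).1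
      (h.mem (L U) fun j => L (N j))
    refine (Submodule.mem_span_range_iff_exists_fun ℝ).2 ⟨c, L.injective ?_⟩
    simpa using hc
  · intro N μ hμ hl
    have h1 := h.low (fun j => L (N j)) (μ / b) (by positivity) fun c => by
      have := (hl c).trans ((le_of_eq (by simp)).trans (hLb (∑ j, c j • L (N j))))
      rw [div_mul_eq_mul_div, div_le_iff₀ (by positivity)]; linarith
    rw [div_pow, div_le_iff₀ (by positivity)] at h1
    have h0 := h.nn fun j => L (N j)
    calc _ ≤ _ := h1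
      _ = C * (1 * 1 * b ^ (2 * Fintype.card κ)) * g fun j => L (N j) := by ring
      _ ≤ _ := by gcongr

/-- a small angle on `[0, τ0]` propagates to some point of `[1 - ρ, 1]` -/
theorem angle {E : Type} [NormedAddCommGroup E] [NormedSpace ℝ E] [CompleteSpace E]
    {g : (κ → E) → ℝ} {P : E → (κ → E) → E} {C0 : ℝ} (h : Gr g P C0) (n : ℕ) {τ0 : ℝ}
    (h0 : 0 < τ0) (h1 : τ0 ≤ 1) : ∃ C : ℝ, 1 ≤ C ∧ ∀ (U : ℝ → E) (N : ℝ → κ → E) (ε e μ ρ : ℝ),
      0 < μ → 0 < ρ → ρ ≤ 1 → AP (n + 1) ε (fun t => g (N t)) →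
      AP (n + 1) ε (fun t => P (U t) (N t)) →
      (∀ t ∈ Icc 0 τ0, ∃ y ∈ Submodule.span ℝ (range (N t)), ‖U t - y‖ ≤ e) →
      (∀ c : κ → ℝ, μ * ‖c‖ ≤ ‖∑ j, c j • N 0 j‖) →
      C * ε ≤ ρ ^ n * μ ^ (2 * Fintype.card κ) →
      ∃ t ∈ Icc (1 - ρ) 1, ∃ y ∈ Submodule.span ℝ (range (N t)),
        ‖U t - y‖ * ρ ^ n ≤ C * (e + ε / μ ^ (2 * Fintype.card κ)) := by
  have hC0 := h.one
  have hτ : 1 ≤ (6 / τ0) ^ n := one_le_pow₀ (by rw [le_div_iff₀ h0]; linarith)
  have h6 : (1 : ℝ) ≤ 6 ^ n := one_le_pow₀ (by norm_num)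
  refine ⟨4 * 6 ^ n * (6 / τ0) ^ n * C0, by nlinarith [mul_le_mul h6 hτ zero_le_one (by positivity)],
    fun U N ε e μ ρ hμ hρ hρ1 hg hP hk hl hs => ?_⟩
  have hε := hg.nonneg
  have he : 0 ≤ e := by
    obtain ⟨y, -, hy⟩ := hk 0 ⟨le_rfl, h0.le⟩
    exact (norm_nonneg _).trans hy
  obtain ⟨s, hs0, hsm⟩ := isCompact_Icc.exists_isMaxOn (nonempty_Icc.2 zero_le_one) hg.cont
  have hsub : Icc (1 - ρ) 1 ⊆ Icc (0 : ℝ) 1 := Icc_subset_Icc_left (by linarith)
  obtain ⟨t, ht0, htm⟩ := isCompact_Icc.exists_isMaxOn (nonempty_Icc.2 (by linarith))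
    (hg.cont.mono hsub)
  set G := g (N s)
  set η := g (N t)
  set m := μ ^ (2 * Fintype.card κ)
  set r := ρ ^ n with hr
  have hm : 0 < m := by positivity
  have hr0 : 0 < r := by positivity
  have hr1 : r ≤ 1 := pow_le_one₀ hρ.le hρ1
  have a1 : m ≤ C0 * G := (h.low _ μ hμ.le hl).trans
    (mul_le_mul_of_nonneg_left (hsm ⟨le_rfl, zero_le_one⟩) (by linarith))
  have hG : 0 < G := by by_contra hc; push Not at hc; nlinarith
  have a2 : G * r ≤ 6 ^ n * (η + ε) + ε * r := by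
    have := hg.remez' hρ hρ1 (η := η) (fun u hu => by
      rw [Real.norm_eq_abs, abs_of_nonneg (h.nn _)]; exact htm hu) s hs0
    rw [Real.norm_eq_abs, abs_of_nonneg (h.nn _), div_pow] at this
    have b1 := mul_le_mul_of_nonneg_right this hr0.le
    rw [add_mul, mul_right_comm, div_mul_cancel₀ _ hr0.ne'] at b1
    exact b1
  have a3 : 4 * 6 ^ n * ε ≤ r * G := by
    have b1 : 4 * 6 ^ n * (6 / τ0) ^ n * C0 * ε ≤ r * (C0 * G) :=
      hs.trans (mul_le_mul_of_nonneg_left a1 hr0.le)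
    have b2 : 4 * 6 ^ n * 1 * C0 * ε ≤ 4 * 6 ^ n * (6 / τ0) ^ n * C0 * ε := by gcongr
    have b3 : C0 * (4 * 6 ^ n * ε) ≤ C0 * (r * G) := by linarith
    exact le_of_mul_le_mul_left b3 (by linarith)
  have a4 : r * G ≤ 2 * 6 ^ n * η := by
    have b1 : ε * r ≤ 6 ^ n * ε := by nlinarith
    linarith
  have hη : 0 < η := by
    by_contra hc; push Not at hc
    have : 0 < r * G := by positivity
    have : (0 : ℝ) < 6 ^ n := by positivity
    nlinarith
  have a5 := hP.remez h0 h1 (η := C0 * G * e) (fun u hu => by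
    obtain ⟨y, hy, hy'⟩ := hk u hu
    refine (h.near _ _ y hy).trans (mul_le_mul (mul_le_mul_of_nonneg_left
      (hsm ⟨hu.1, hu.2.trans h1⟩) (by linarith)) hy' (norm_nonneg _) (by positivity))) t (hsub ht0)
  refine ⟨t, ht0, η⁻¹ • (η • U t - P (U t) (N t)), Submodule.smul_mem _ _ (h.mem _ _), ?_⟩
  rw [smul_sub, smul_smul, inv_mul_cancel₀ hη.ne', one_smul, sub_sub_cancel, norm_smul,
    Real.norm_eq_abs, abs_of_pos (inv_pos.2 hη)]
  have a6 : ε ≤ C0 * G * (ε / m) := by
    rw [mul_div_assoc', le_div_iff₀ hm]; nlinarith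
  have a7 : ‖P (U t) (N t)‖ ≤ 2 * (6 / τ0) ^ n * C0 * (e + ε / m) * G := by
    have b1 : ε ≤ (6 / τ0) ^ n * ε := le_mul_of_one_le_left hε hτ
    have b2 := mul_le_mul_of_nonneg_left a6 (show 0 ≤ (6 / τ0) ^ n by positivity)
    have b3 : 0 ≤ (6 / τ0) ^ n * (C0 * G * e) := by positivity
    nlinarith
  rw [mul_assoc, inv_mul_le_iff₀ hη]
  have b0 : 0 ≤ 2 * (6 / τ0) ^ n * C0 * (e + ε / m) := by positivity
  have b1 := mul_le_mul_of_nonneg_right a7 hr0.le
  have b2 := mul_le_mul_of_nonneg_left a4 b0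
  nlinarith

end Crest.Agent.N221.NB
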