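import Crest.Agent.N221.NB.Dev2

/-! Row 221, no branching: naturality of the joint flow of a basic frame. -/

set_option autoImplicit false
set_option linter.unusedSectionVars false
set_option maxSynthPendingDepth 3

open Set Filter Topology
open scoped ContDiff

noncomputable section

namespace Crest.Agent.N221.NB.Dev

open Fr

variable {Z G : Type} [NormedAddCommGroup Z] [NormedSpace ℝ Z] [NormedAddCommGroup G]
  [NormedSpace ℝ G] [FiniteDimensional ℝ Z] [FiniteDimensional ℝ G]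

/-- an isotropic frame, basic along itself, on which `om` is nondegenerate -/
structure Fio (om : Z →L[ℝ] Z →L[ℝ] ℝ) (io : Z → G →L[ℝ] Z) (U : Set Z) : Prop where
  op : IsOpen U
  sm : ContDiffOn ℝ ∞ io U
  iso : ∀ z ∈ U, ∀ a b, om (io z a) (io z b) = 0
  bas : ∀ z ∈ U, ∀ a a' w, om (fderiv ℝ io z (io z a) a') w = om (fderiv ℝ io z w a') (io z a)
  nd : ∀ z ∈ U, ∀ a, (∀ v, om (io z a) v = 0) → a = 0

/-- `h` is `C²` at `z`, `D h z` preserves `om`, is onto modulo the kernel of `om`, and maps the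
range of the frame to the range of the frame -/
structure Pt (om : Z →L[ℝ] Z →L[ℝ] ℝ) (io : Z → G →L[ℝ] Z) (h : Z → Z) (z : Z) : Prop where
  sm : ContDiffAt ℝ 2 h z
  sp : ∀ u v, om (fderiv ℝ h z u) (fderiv ℝ h z v) = om u v
  surj : ∀ v, ∃ u, ∀ x, om x (fderiv ℝ h z u) = om x v
  map : ∀ a, ∃ a', fderiv ℝ h z (io z a) = io (h z) a'

variable {om : Z →L[ℝ] Z →L[ℝ] ℝ} {io : Z → G →L[ℝ] Z} {U : Set Z} {h : Z → Z}

theorem Fio.at (F : Fio om io U) {z : Z} (hz : z ∈ U) : ContDiffAt ℝ ∞ io z :=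
  F.sm.contDiffAt (F.op.mem_nhds hz)

theorem Fio.diff (F : Fio om io U) {z : Z} (hz : z ∈ U) : DifferentiableAt ℝ io z :=
  (F.at hz).differentiableAt (by simp)

theorem Fio.inj (F : Fio om io U) {z : Z} (hz : z ∈ U) : Function.Injective (io z) :=
  (injective_iff_map_eq_zero _).2 fun a ha => F.nd z hz a fun v => by simp [ha]

theorem Fio.one (F : Fio om io U) : ContDiffOn ℝ 1 io U := F.sm.of_le (by simp)

theorem Fio.bas_th (F : Fio om io U) {z : Z} (hz : z ∈ U) : Bas (th om io) io z :=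
  Dev.bas_th (F.diff hz) ((F.op.eventually_mem hz).mono fun y hy => F.iso y hy)
    fun a b v => F.bas z hz b a v

theorem Pt.congr {h' : Z → Z} {z : Z} (P : Pt om io h z) (e : h' =ᶠ[𝓝 z] h) : Pt om io h' z := by
  have e1 : fderiv ℝ h' z = fderiv ℝ h z := e.fderiv_eq
  have e2 : h' z = h z := e.eq_of_nhds
  exact ⟨P.sm.congr_of_eventuallyEq e, by rw [e1]; exact P.sp, by rw [e1]; exact P.surj,
    by rw [e1, e2]; exact P.map⟩

theorem Fio.inj_pth (F : Fio om io U) {z : Z} (hz : h z ∈ U)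
    (hs : ∀ v, ∃ u, ∀ x, om x (fderiv ℝ h z u) = om x v) : Function.Injective (pth om io h z) :=
  (injective_iff_map_eq_zero _).2 fun a ha => F.nd _ hz a fun v => by
    obtain ⟨u, hu⟩ := hs v
    rw [← hu, ← pth_apply, ha]
    rfl

/-- the matrix of `D h` in the frame -/
def mat (io : Z → G →L[ℝ] Z) (h : Z → Z) (a : G) (z : Z) : G :=
  Classical.epsilon fun a' => fderiv ℝ h z (io z a) = io (h z) a'

theorem Pt.mat_spec {z : Z} (P : Pt om io h z) (a : G) :
    fderiv ℝ h z (io z a) = io (h z) (mat io h a z) :=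
  Classical.epsilon_spec (P.map a)

/-- the matrix is constant along the frame -/
theorem mat_der (F : Fio om io U) {z : Z} (hz : z ∈ U) (hz' : h z ∈ U)
    (P : ∀ᶠ y in 𝓝 z, Pt om io h y) (a : G) :
    DifferentiableAt ℝ (mat io h a) z ∧ ∀ b, fderiv ℝ (mat io h a) z (io z b) = 0 := by
  have P0 := P.self_of_nhds
  have hU' : ∀ᶠ y in 𝓝 z, h y ∈ U := P0.sm.continuousAt.eventually (F.op.mem_nhds hz')
  have hd : DifferentiableAt ℝ (mat io h a) z := by
    refine (contDiffAt_of_inj (n := 1) (L := fun y => io (h y))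
      (F := fun y => fderiv ℝ h y (io y a))
      (((F.at hz').of_le (by simp)).comp z (P0.sm.of_le (by norm_num)))
      ((P0.sm.fderiv_right (m := 1) (by norm_num)).clm_apply
        (((F.at hz).of_le (by simp)).clm_apply contDiffAt_const)) (F.inj hz')
      (P.mono fun y hy => (hy.mat_spec a).symm)).differentiableAt (by simp)
  refine ⟨hd, fun b => ?_⟩
  have hc : HasDerivAt (fun t : ℝ => z + t • io z b) (io z b) 0 := by
    simpa using ((hasDerivAt_id (0 : ℝ)).smul_const (io z b)).const_add z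
  have hc0 : z + (0 : ℝ) • io z b = z := by simp
  have hs : {t : ℝ | Pt om io h (z + t • io z b)} ∈ 𝓝 (0 : ℝ) :=
    hc.continuousAt.eventually (by simp only [hc0]; exact P)
  have B' : Bas (pth om io h) io z := by
    refine bas_pth P0.sm (F.diff hz') ?_ fun a b v => ?_
    · filter_upwards [P, hU'] with y hy hy' a b
      rw [hy.mat_spec, F.iso _ hy']
    · rw [P0.mat_spec, F.bas _ hz']
  have hg' : HasDerivAt (fun t : ℝ => mat io h a (z + t • io z b))
      (fderiv ℝ (mat io h a) z (io z b)) 0 :=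
    HasFDerivAt.comp_hasDerivAt_of_eq (l := mat io h a) 0 hd.hasFDerivAt hc hc0.symm
  have := step (θ := th om io) (θ' := pth om io h) (ζ := io) (c := fun t : ℝ => z + t • io z b)
    (g := fun _ => a) (g' := fun t => mat io h a (z + t • io z b)) (τ := 0) (β := b) (dg := 0)
    (by rw [hc0]; exact F.bas_th hz) (by rw [hc0]; exact B') (by rw [hc0]; exact F.diff hz)
    (uniqueDiffWithinAt_of_mem_nhds hs) (mem_of_mem_nhds hs)
    (by rw [hc0]; exact hc.hasDerivWithinAt) (hasDerivWithinAt_const _ _ _) hg'.hasDerivWithinAt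
    fun t ht => ContinuousLinearMap.ext fun v => by
      rw [th_apply, pth_apply, ← Pt.mat_spec ht, Pt.sp ht]
  rw [hc0, map_zero] at this
  exact F.inj_pth hz' P0.surj (by rw [← this, map_zero])

/-- along a curve tangent to the frame the matrix is constant -/
theorem mat_const (F : Fio om io U) {c : ℝ → Z} {s t : ℝ} (hc : ContinuousOn c (Icc s t))
    (hc' : ∀ r ∈ Ico s t, ∃ β, HasDerivWithinAt c (io (c r) β) (Ici r) r)
    (hU : ∀ r ∈ Icc s t, c r ∈ U) (hU' : ∀ r ∈ Icc s t, h (c r) ∈ U)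
    (P : ∀ r ∈ Icc s t, ∀ᶠ y in 𝓝 (c r), Pt om io h y) {a a' : G}
    (h0 : fderiv ℝ h (c s) (io (c s) a) = io (h (c s)) a') :
    ∀ r ∈ Icc s t, fderiv ℝ h (c r) (io (c r) a) = io (h (c r)) a' := by
  intro r hr
  have hs : s ∈ Icc s t := left_mem_Icc.2 (hr.1.trans hr.2)
  have h1 := constant_of_has_deriv_right_zero (f := fun r => mat io h a (c r)) (a := s) (b := t)
    (fun r hr => (mat_der F (hU r hr) (hU' r hr) (P r hr) a).1.continuousAt.comp_continuousWithinAt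
      (hc r hr)) (fun r hr => by
      obtain ⟨β, hβ⟩ := hc' r hr
      have hr' := Ico_subset_Icc_self hr
      obtain ⟨d, e⟩ := mat_der F (hU r hr') (hU' r hr') (P r hr') a
      have := d.hasFDerivAt.comp_hasDerivWithinAt r hβ
      rwa [e] at this) r hr
  have h2 : mat io h a (c s) = a' :=
    F.inj (hU' s hs) (by rw [← (P s hs).self_of_nhds.mat_spec, h0])
  rw [(P r hr).self_of_nhds.mat_spec, h1, h2]

variable {U₀ : Set Z} {D : Set (Z × G)} {J : Z × G → Z}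

/-- **NAT**, one map `h`: `f` is read as `h` at every coincidence point of the box -/
theorem nat_one {X : Type} [TopologicalSpace X] [T2Space X] (F : Fio om io U) (hJ : JF io U₀ D J)
    {f Ψ : Z → X} (hf : ContinuousOn f U) (hΨ : ContinuousOn Ψ U)
    (loc : ∀ z ∈ U, ∀ z' ∈ U, f z = Ψ z' → h z = z' ∧ ∀ᶠ y in 𝓝 z, Pt om io h y ∧ f y = Ψ (h y))
    {y y' : Z} {w w' : G} (hp : (y, w) ∈ D) (hp' : (y', w') ∈ D)
    (hin : ∀ t ∈ Icc (0 : ℝ) 1, J (y, t • w) ∈ U) (hin' : ∀ t ∈ Icc (0 : ℝ) 1, J (y', t • w') ∈ U)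
    (e : f y = Ψ y') (hw : fderiv ℝ h y (io y w) = io y' w') :
    f (J (y, w)) = Ψ (J (y', w')) ∧ ∀ a a', fderiv ℝ h y (io y a) = io y' a' →
      fderiv ℝ h (J (y, w)) (io (J (y, w)) a) = io (J (y', w')) a' := by
  set c : ℝ → Z := fun t => J (y, t • w) with hc
  set c' : ℝ → Z := fun t => J (y', t • w') with hc'
  have hm : ∀ t ∈ Icc (0 : ℝ) 1, (y, t • w) ∈ D := fun t ht => hJ.star _ hp t ht
  have hm' : ∀ t ∈ Icc (0 : ℝ) 1, (y', t • w') ∈ D := fun t ht => hJ.star _ hp' t ht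
  have hcU : ∀ t ∈ Icc (0 : ℝ) 1, c t ∈ U := hin
  have hcU' : ∀ t ∈ Icc (0 : ℝ) 1, c' t ∈ U := hin'
  have hd : ∀ t ∈ Icc (0 : ℝ) 1, HasDerivAt c (io (c t) w) t := fun t ht => jf_ray hJ (hm t ht)
  have hd' : ∀ t ∈ Icc (0 : ℝ) 1, HasDerivAt c' (io (c' t) w') t := fun t ht =>
    jf_ray hJ (hm' t ht)
  have cc : ContinuousOn c (Icc 0 1) := fun t ht => (hd t ht).continuousAt.continuousWithinAt
  have cc' : ContinuousOn c' (Icc 0 1) := fun t ht => (hd' t ht).continuousAt.continuousWithinAt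
  have c0 : c 0 = y := by simp [hc, hJ.init y (hJ.mem1 _ hp)]
  have c0' : c' 0 = y' := by simp [hc', hJ.init y' (hJ.mem1 _ hp')]
  have hy : h y = y' := (loc y (c0 ▸ hcU 0 (left_mem_Icc.2 zero_le_one)) y'
    (c0' ▸ hcU' 0 (left_mem_Icc.2 zero_le_one)) e).1
  -- constancy of the matrix up to a time until which the curves coincide
  have mc : ∀ t ∈ Icc (0 : ℝ) 1, (∀ r ∈ Icc 0 t, h (c r) ∈ U ∧ f (c r) = Ψ (h (c r))) →
      ∀ a a', fderiv ℝ h y (io y a) = io y' a' →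
      ∀ r ∈ Icc 0 t, fderiv ℝ h (c r) (io (c r) a) = io (h (c r)) a' := by
    intro t ht H a a' ha
    have sub : Icc 0 t ⊆ Icc (0 : ℝ) 1 := Icc_subset_Icc_right ht.2
    exact mat_const F (cc.mono sub)
      (fun r hr => ⟨w, (hd r (sub (Ico_subset_Icc_self hr))).hasDerivWithinAt⟩)
      (fun r hr => hcU r (sub hr)) (fun r hr => (H r hr).1)
      (fun r hr => (loc _ (hcU r (sub hr)) _ (H r hr).1 (H r hr).2).2.mono fun _ k => k.1)
      (by rw [c0, hy]; exact ha)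
  have key : Icc (0 : ℝ) 1 ⊆ {t | f (c t) = Ψ (c' t)} := by
    refine IsClosed.Icc_subset_of_forall_mem_nhdsGT_of_Icc_subset ?_ (by
      show f (c 0) = Ψ (c' 0)
      rw [c0, c0', e]) fun t ht H => ?_
    · rw [inter_comm]
      exact isClosed_Icc.isClosed_eq (hf.comp cc hcU) (hΨ.comp cc' hcU')
    have ht' := Ico_subset_Icc_self ht
    have l := loc _ (hcU t ht') _ (hcU' t ht') (H (right_mem_Icc.2 ht.1))
    have ev : ∀ᶠ r in 𝓝 t, h (c r) ∈ U ∧ f (c r) = Ψ (h (c r)) :=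
      (hd t ht').continuousAt.eventually
        ((l.2.self_of_nhds.1.sm.continuousAt.eventually
          (F.op.mem_nhds (by rw [l.1]; exact hcU' t ht'))).and (l.2.mono fun _ k => k.2))
    obtain ⟨t', htt', H'⟩ : ∃ t' > t, Icc t t' ⊆ {r | (h (c r) ∈ U ∧ f (c r) = Ψ (h (c r))) ∧
        r ≤ 1} := (nhdsGE_basis_Icc (a := t)).mem_iff.1
      (mem_nhdsWithin_of_mem_nhds (ev.and (Iic_mem_nhds ht.2))) |>.imp fun _ k => ⟨k.1, k.2⟩
    have ht1 : t' ∈ Icc (0 : ℝ) 1 :=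
      ⟨ht.1.trans htt'.le, (H' (right_mem_Icc.2 htt'.le)).2⟩
    have sub : Icc 0 t' ⊆ Icc (0 : ℝ) 1 := Icc_subset_Icc_right ht1.2
    have H2 : ∀ r ∈ Icc 0 t', h (c r) ∈ U ∧ f (c r) = Ψ (h (c r)) := fun r hr => by
      rcases le_total r t with k | k
      · have k1 : r ∈ Icc 0 t := ⟨hr.1, k⟩
        have k2 := (loc _ (hcU r (sub hr)) _ (hcU' r (sub hr)) (H k1)).1
        rw [k2]
        exact ⟨hcU' r (sub hr), H k1⟩
      · exact (H' ⟨k, hr.2⟩).1
    have sm : ∀ r ∈ Icc 0 t', DifferentiableAt ℝ h (c r) := fun r hr =>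
      (loc _ (hcU r (sub hr)) _ (H2 r hr).1 (H2 r hr).2).2.self_of_nhds.1.sm.differentiableAt
        (by simp)
    have dx : ∀ r ∈ Icc 0 t', HasDerivAt (fun r => h (c r)) (io (h (c r)) w') r := fun r hr => by
      rw [← mc t' ht1 H2 w w' hw r hr]
      exact (sm r hr).hasFDerivAt.comp_hasDerivAt r (hd r (sub hr))
    have eq := ode_uniq (g := fun _ => w') F.op F.one continuousOn_const
      (fun r hr => (dx r hr).continuousAt.continuousWithinAt) (cc'.mono sub)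
      (fun r hr => (H2 r hr).1) (fun r hr => hcU' r (sub hr))
      (fun r hr => (dx r (Ico_subset_Icc_self hr)).hasDerivWithinAt)
      (fun r hr => (hd' r (sub (Ico_subset_Icc_self hr))).hasDerivWithinAt) (by rw [c0, c0', hy])
    refine mem_of_superset (Ioc_mem_nhdsGT htt') fun r hr => ?_
    have hr' : r ∈ Icc 0 t' := ⟨ht.1.trans hr.1.le, hr.2⟩
    show f (c r) = Ψ (c' r)
    rw [(H2 r hr').2, eq r hr']
  have one : (1 : ℝ) ∈ Icc (0 : ℝ) 1 := right_mem_Icc.2 zero_le_one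
  have hh : ∀ r ∈ Icc (0 : ℝ) 1, h (c r) = c' r := fun r hr =>
    (loc _ (hcU r hr) _ (hcU' r hr) (key hr)).1
  refine ⟨by simpa [hc, hc'] using key one, fun a a' ha => ?_⟩
  have := mc 1 one (fun r hr => by rw [hh r hr]; exact ⟨hcU' r hr, key hr⟩) a a' ha 1 one
  rw [hh 1 one] at this
  simpa [hc, hc'] using this

/-- **NAT** for a map defined on the whole space -/
theorem nat_self (F : Fio om io U) (hJ : JF io U D J) (hf : ContinuousOn h U)
    (loc : ∀ z ∈ U, h z ∈ U → Pt om io h z) {y : Z} {w w' : G} (hp : (y, w) ∈ D)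
    (hp' : (h y, w') ∈ D) (hw : fderiv ℝ h y (io y w) = io (h y) w') :
    h (J (y, w)) = J (h y, w') ∧ ∀ a a', fderiv ℝ h y (io y a) = io (h y) a' →
      fderiv ℝ h (J (y, w)) (io (J (y, w)) a) = io (J (h y, w')) a' :=
  nat_one (Ψ := id) F hJ hf continuousOn_id (fun z hz z' hz' e => ⟨e, by
    filter_upwards [F.op.mem_nhds hz, (hf.continuousAt (F.op.mem_nhds hz)).eventually
      (F.op.mem_nhds (show h z ∈ U from e ▸ hz'))] with y k1 k2
    exact ⟨loc y k1 k2, rfl⟩⟩) hp hp' (fun t ht => hJ.mem _ (hJ.star _ hp t ht))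
    (fun t ht => hJ.mem _ (hJ.star _ hp' t ht)) rfl hw

/-- **NAT**, germs: at every coincidence point `f` is read as some germ; `Ψ` is injective -/
theorem nat {X : Type} [TopologicalSpace X] [T2Space X] (F : Fio om io U) (hJ : JF io U₀ D J)
    {f Ψ : Z → X} (hf : ContinuousOn f U) (hΨ : ContinuousOn Ψ U) (hi : InjOn Ψ U)
    (loc : ∀ z ∈ U, ∀ z' ∈ U, f z = Ψ z' →
      ∃ h, h z = z' ∧ ∀ᶠ y in 𝓝 z, Pt om io h y ∧ f y = Ψ (h y))
    {y y' : Z} {w w' : G} (hp : (y, w) ∈ D) (hp' : (y', w') ∈ D)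
    (hin : ∀ t ∈ Icc (0 : ℝ) 1, J (y, t • w) ∈ U) (hin' : ∀ t ∈ Icc (0 : ℝ) 1, J (y', t • w') ∈ U)
    (hy : h y = y') (hc : ContinuousAt h y) (e : ∀ᶠ x in 𝓝 y, f x = Ψ (h x))
    (hw : fderiv ℝ h y (io y w) = io y' w') : f (J (y, w)) = Ψ (J (y', w')) ∧
      ∀ k : Z → Z, k (J (y, w)) = J (y', w') → ContinuousAt k (J (y, w)) →
        (∀ᶠ x in 𝓝 (J (y, w)), f x = Ψ (k x)) → ∀ a a', fderiv ℝ h y (io y a) = io y' a' →
        fderiv ℝ k (J (y, w)) (io (J (y, w)) a) = io (J (y', w')) a' := by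
  classical
  set k : Z → Z := fun z => if H : ∃ z' ∈ U, f z = Ψ z' then H.choose else z with hk
  have uq : ∀ z z', z' ∈ U → f z = Ψ z' → k z = z' := fun z z' hz' e => by
    have H : ∃ z' ∈ U, f z = Ψ z' := ⟨z', hz', e⟩
    simp only [hk, dif_pos H]
    exact hi H.choose_spec.1 hz' (H.choose_spec.2.symm.trans e)
  have germ : ∀ (h : Z → Z) z, h z ∈ U → ContinuousAt h z → (∀ᶠ x in 𝓝 z, f x = Ψ (h x)) →
      k =ᶠ[𝓝 z] h := fun h z hz hc e => by
    filter_upwards [e, hc.eventually (F.op.mem_nhds hz)] with x k1 k2 using uq x _ k2 k1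
  have y'U : y' ∈ U := by
    simpa [hJ.init y' (hJ.mem1 _ hp')] using hin' 0 (left_mem_Icc.2 zero_le_one)
  have g0 := germ h y (hy ▸ y'U) hc e
  have main := nat_one (h := k) F hJ hf hΨ (fun z hz z' hz' e => ⟨uq z z' hz' e, by
    obtain ⟨h, h1, h2⟩ := loc z hz z' hz' e
    have g := germ h z (h1 ▸ hz') h2.self_of_nhds.1.sm.continuousAt (h2.mono fun _ k => k.2)
    filter_upwards [h2, g.eventuallyEq_nhds] with x k1 k2
    exact ⟨k1.1.congr k2, by rw [k2.eq_of_nhds, k1.2]⟩⟩) hp hp' hin hin'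
    (hy ▸ e.self_of_nhds) (by rw [g0.fderiv_eq, hw])
  refine ⟨main.1, fun k' k1 k2 k3 a a' ha => ?_⟩
  have g1 := germ k' _ (by rw [k1]; simpa using hin' 1 (right_mem_Icc.2 zero_le_one)) k2 k3
  rw [← g1.fderiv_eq]
  exact main.2 a a' (by rw [g0.fderiv_eq, ha])

/-- a map preserving a bilinear form is onto modulo the kernel of the form -/
theorem surj_of_sp {L : Z →L[ℝ] Z} (hL : ∀ u v, om (L u) (L v) = om u v) (v : Z) :
    ∃ u, ∀ x, om x (L u) = om x v := by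
  set φ : Z →ₗ[ℝ] (Z →L[ℝ] ℝ) := om.flip.toLinearMap with hφ
  set T : (Z →L[ℝ] ℝ) →ₗ[ℝ] (Z →L[ℝ] ℝ) :=
    ((ContinuousLinearMap.compL ℝ Z Z ℝ).flip L).toLinearMap with hT
  have h1 : T ∘ₗ (φ ∘ₗ (L : Z →ₗ[ℝ] Z)) = φ := by
    ext u x
    exact hL x u
  have h2 : LinearMap.range (φ ∘ₗ (L : Z →ₗ[ℝ] Z)) = LinearMap.range φ := by
    refine Submodule.eq_of_le_of_finrank_le (LinearMap.range_comp_le_range _ _) ?_
    conv_lhs => rw [← h1, LinearMap.range_comp]
    exact Submodule.finrank_map_le _ _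
  obtain ⟨u, hu⟩ : φ v ∈ LinearMap.range (φ ∘ₗ (L : Z →ₗ[ℝ] Z)) := h2 ▸ ⟨v, rfl⟩
  exact ⟨u, fun x => congrArg (fun l : Z →L[ℝ] ℝ => l x) hu⟩

/-- a smooth injective family has a smooth left inverse -/
theorem exists_li {X : Z → G →L[ℝ] Z} {z₀ : Z} (hU : IsOpen U) (hz : z₀ ∈ U)
    (hX : ContDiffOn ℝ ∞ X U) (hi : Function.Injective (X z₀)) :
    ∃ (V : Set Z) (ρ : Z → Z →L[ℝ] G), IsOpen V ∧ z₀ ∈ V ∧ V ⊆ U ∧ ContDiffOn ℝ ∞ ρ V ∧
      ∀ z ∈ V, ∀ g, ρ z (X z g) = g := by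
  have : CompleteSpace G := FiniteDimensional.complete ℝ G
  obtain ⟨R, hR⟩ := (X z₀ : G →ₗ[ℝ] Z).exists_leftInverse_of_injective
    (LinearMap.ker_eq_bot.2 hi)
  set R' : Z →L[ℝ] G := LinearMap.toContinuousLinearMap R with hR'
  have h1 : ContDiffOn ℝ ∞ (fun z => R' ∘L X z) U := contDiffOn_const.clm_comp hX
  have h0 : ContinuousLinearMap.id ℝ G = R' ∘L X z₀ := by
    ext v
    exact (congrArg (fun f : G →ₗ[ℝ] G => f v) hR).symm
  refine ⟨U ∩ (fun z => R' ∘L X z) ⁻¹' range ((↑) : (G ≃L[ℝ] G) → G →L[ℝ] G),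
    fun z => (R' ∘L X z).inverse ∘L R',
    h1.continuousOn.isOpen_inter_preimage hU ContinuousLinearEquiv.isOpen,
    ⟨hz, .refl ℝ G, h0⟩, inter_subset_left, ContDiffOn.clm_comp (fun z hz => ?_) contDiffOn_const,
    fun z hz g => ContinuousLinearMap.IsInvertible.inverse_apply_self hz.2 g⟩
  exact (ContinuousLinearMap.IsInvertible.contDiffAt_map_inverse hz.2).comp_contDiffWithinAt z
    ((h1 z hz.1).mono inter_subset_left)

end Crest.Agent.N221.NB.Dev
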