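import Crest.Agent.N221.NB.Defs
import Crest.Agent.N221.NB.Nat

/-! Row 221, block NB: `natS : NatS` and `devS : DevS`. -/

set_option autoImplicit false
set_option linter.unusedSectionVars false
set_option maxSynthPendingDepth 3

open Set Metric Filter Topology
open scoped ContDiff

noncomputable section

namespace Crest.Agent.N221.NB

open Fr

theorem devS : DevS := by
  intro Z GI _ _ _ _ _ ι U Dm J n w q τ₁ hU hι hJ hq hw H
  exact Dev.jf_dev hU (hι.of_le (by simp)) hJ hq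
    (fun t ht => (H t ht).2.2.2.continuousAt.continuousWithinAt)
    (fun t ht => (H t (Ico_subset_Icc_self ht)).2.2.2.hasDerivWithinAt) hw
    (fun t ht => (H t ht).2.2.1.continuousAt.continuousWithinAt) (fun t ht => (H t ht).1)
    (fun t ht => (H t (Ico_subset_Icc_self ht)).2.2.1.hasDerivWithinAt) fun t ht => (H t ht).2.1

theorem liS : LiS := fun _ _ _ _ _ _ _ _ _ _ _ hU hz hX hi => Dev.exists_li hU hz hX hi

section

variable {Z GI Gs Gu : Type} [NormedAddCommGroup Z] [NormedSpace ℝ Z] [NormedAddCommGroup GI]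
  [NormedSpace ℝ GI] [NormedAddCommGroup Gs] [NormedSpace ℝ Gs] [NormedAddCommGroup Gu]
  [NormedSpace ℝ Gu] [FiniteDimensional ℝ Z] [FiniteDimensional ℝ GI] [FiniteDimensional ℝ Gs]
  {Ω : Z →L[ℝ] Z →L[ℝ] ℝ} {U : Set Z} {ι : Z → GI →L[ℝ] Z} {ζ : Z → Gs →L[ℝ] Z}
  {ν : Z → Gu →L[ℝ] Z}

theorem Frs.fio (h : Frs Ω U ι ζ ν) {W : Set Z} (hW : IsOpen W) (s : W ⊆ U) : Dev.Fio Ω ι W :=
  ⟨hW, h.sι.mono s, fun z hz => h.iso z (s hz), fun z hz a a' w => h.bι z (s hz) a a' w,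
    fun z hz => h.nd z (s hz)⟩

/-- comparison of derivatives -/
theorem norm_deriv_le {c c' : ℝ → Z} {v v' : Z} {C : ℝ} (h : HasDerivAt c v 0)
    (h' : HasDerivAt c' v' 0) (hC : ∀ᶠ t in 𝓝[>] (0 : ℝ), ‖c' t - c' 0‖ ≤ C * ‖c t - c 0‖) :
    ‖v'‖ ≤ C * ‖v‖ := by
  refine le_of_tendsto_of_tendsto h'.tendsto_slope_zero_right.norm
    (h.tendsto_slope_zero_right.norm.const_mul C) ?_
  filter_upwards [hC] with t ht
  simp only [zero_add, norm_smul]
  calc ‖t⁻¹‖ * ‖c' t - c' 0‖ ≤ ‖t⁻¹‖ * (C * ‖c t - c 0‖) := by gcongr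
    _ = _ := by ring

/-- a `C¹` map with injective derivative is locally injective -/
theorem injOn_near {φ : GI → Z} {L : GI →L[ℝ] Z} (h : HasStrictFDerivAt φ L 0)
    (hi : Function.Injective L) : ∃ s ∈ 𝓝 (0 : GI), InjOn φ s := by
  obtain ⟨K, hK0, hK⟩ := (L : GI →ₗ[ℝ] Z).exists_antilipschitzWith (LinearMap.ker_eq_bot.2 hi)
  have hK0' : (0 : ℝ) < K := hK0
  obtain ⟨s, hs, H⟩ := h.approximates_deriv_on_nhds (c := K⁻¹ / 2) (Or.inr (by positivity))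
  refine ⟨s, hs, fun x hx y hy e => ?_⟩
  have h1 := H x hx y hy
  have h2 := hK.le_mul_dist x y
  rw [e, sub_self, zero_sub, norm_neg] at h1
  rw [dist_eq_norm, dist_eq_norm] at h2
  have h3 : ‖(L : GI →ₗ[ℝ] Z) x - (L : GI →ₗ[ℝ] Z) y‖ = ‖L (x - y)‖ := by rw [map_sub]; rfl
  rw [h3] at h2
  push_cast at h1
  have h4 : (K : ℝ) * ((K : ℝ)⁻¹ / 2 * ‖x - y‖) = ‖x - y‖ / 2 := by field_simp
  have h5 : ‖x - y‖ ≤ 0 := by nlinarith [mul_le_mul_of_nonneg_left h1 hK0'.le]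
  exact sub_eq_zero.1 (norm_le_zero_iff.1 h5)

/-- a form preserving map with `L (range ζ) ⊆ range ζ'` pulls `range ζ'` back into `range ζ` -/
theorem back_of_rg {L : Z →L[ℝ] Z} {i : GI →L[ℝ] Z} {s s' : Gs →L[ℝ] Z}
    (sp : ∀ v w, Ω (L v) (L w) = Ω v w) (nd : ∀ g, (∀ w, Ω (i g) w = 0) → g = 0)
    (hs : Function.Injective s) (hs' : Function.Injective s') (sub : ∀ g, ∃ g', s g = i g')
    (rg : Rg L s s') {v : GI} {g : Gs} (e : L (i v) = s' g) : ∃ g₁, i v = s g₁ := by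
  have inj : ∀ a, L (i a) = 0 → a = 0 := fun a ha => nd a fun w => by rw [← sp, ha]; simp
  have h1 : Function.Injective ((L ∘L s : Gs →L[ℝ] Z) : Gs →ₗ[ℝ] Z) :=
    (injective_iff_map_eq_zero _).2 fun b hb => by
      obtain ⟨a, ha⟩ := sub b
      have : L (i a) = 0 := by rw [← ha]; exact hb
      exact hs (by rw [ha, inj a this, map_zero, map_zero])
  have h2 : LinearMap.range ((L ∘L s : Gs →L[ℝ] Z) : Gs →ₗ[ℝ] Z) =
      LinearMap.range (s' : Gs →ₗ[ℝ] Z) := by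
    refine Submodule.eq_of_le_of_finrank_eq ?_ ?_
    · rintro _ ⟨b, rfl⟩
      obtain ⟨b', hb⟩ := rg b
      exact ⟨b', hb.symm⟩
    · rw [LinearMap.finrank_range_of_inj h1, LinearMap.finrank_range_of_inj hs']
  obtain ⟨g₁, hg⟩ : s' g ∈ LinearMap.range ((L ∘L s : Gs →L[ℝ] Z) : Gs →ₗ[ℝ] Z) := h2 ▸ ⟨g, rfl⟩
  obtain ⟨a, ha⟩ := sub g₁
  have hg' : L (i a) = s' g := by rw [← ha]; exact hg
  have : v - a = 0 := inj _ (by rw [map_sub, map_sub, e, hg', sub_self])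
  exact ⟨g₁, by rw [ha, sub_eq_zero.1 this]⟩

end

theorem natS : NatS := by
  intro P Y Z GI Gs Gu _ _ _ _ _ _ _ _ _ _ _ _ _ _ d a Ω U ι ζ ν Ψ z₀ hd hB Dm J hJ
  have F := hB.frs
  have hSs : ∀ k ∈ Dm, d.Ss (Ψ k.1) (Ψ (J k)) := by
    rintro ⟨y, w⟩ hk
    have := hB.leaf (fun t => J (y, t • w)) w fun t ht =>
      ⟨hJ.mem _ (hJ.star _ hk t ht), Dev.jf_ray hJ (hJ.star _ hk t ht)⟩
    simpa [hJ.init y (hJ.mem1 _ hk)] using this
  refine ⟨hSs, ?_⟩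
  obtain ⟨K₀, hK₀, V, hV, bil⟩ := hB.bil
  obtain ⟨V₁, ρ, hV₁, hz₁, -, hρ, hρι⟩ :=
    Dev.exists_li F.opn hB.mem F.sι ((F.fio F.opn Subset.rfl).inj hB.mem)
  set W : Set Z := U ∩ interior V ∩ V₁ with hW
  have hWo : IsOpen W := (F.opn.inter isOpen_interior).inter hV₁
  have hzW : z₀ ∈ W := ⟨⟨hB.mem, mem_interior_iff_mem_nhds.2 hV⟩, hz₁⟩
  have hWU : W ⊆ U := fun z hz => hz.1.1
  have hWV : W ⊆ V := fun z hz => interior_subset hz.1.2
  have h00 : (z₀, (0 : GI)) ∈ Dm := hJ.zero _ hB.mem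
  have hJ0 := Dev.jf_at hJ h00
  obtain ⟨s, hs, hinj⟩ : ∃ s ∈ 𝓝 (0 : GI), InjOn (fun w => J (z₀, w)) s := by
    have h1 : ContDiffAt ℝ 1 (fun w : GI => J (z₀, w)) 0 :=
      (hJ0.of_le (by simp)).comp (f := fun w : GI => (z₀, w)) 0 (by fun_prop)
    refine injOn_near (h1.hasStrictFDerivAt one_ne_zero) ?_
    have h2 := (hJ0.differentiableAt (by simp)).hasFDerivAt.comp (0 : GI)
      (f := fun w : GI => (z₀, w)) (hasFDerivAt_prodMk_right z₀ 0)
    rw [show fderiv ℝ (fun w : GI => J (z₀, w)) 0 = _ from h2.fderiv]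
    intro v v' e
    have e' : fderiv ℝ J (z₀, 0) (0, v) = fderiv ℝ J (z₀, 0) (0, v') := e
    rw [hJ.der _ h00, hJ.der _ h00, hJ.init _ hB.mem] at e'
    exact (F.fio F.opn Subset.rfl).inj hB.mem e'
  obtain ⟨r₀, hr₀, hsub⟩ : ∃ r₀ > 0, closedBall ((z₀, 0) : Z × GI) r₀ ⊆
      {k | k ∈ Dm ∧ J k ∈ W ∧ k.2 ∈ s} := by
    refine nhds_basis_closedBall.mem_iff.1 ((hJ.op.eventually_mem h00).and
      ((hJ0.continuousAt.eventually (hWo.mem_nhds ?_)).and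
        ((continuousAt_snd (p := ((z₀, 0) : Z × GI))).eventually_mem hs)))
    rw [hJ.init _ hB.mem]
    exact hzW
  have box : ∀ y w, y ∈ closedBall z₀ r₀ → ‖w‖ ≤ r₀ → (y, w) ∈ Dm ∧ J (y, w) ∈ W ∧ w ∈ s :=
    fun y w hy hw => hsub (by
      rw [← closedBall_prod_same]; exact ⟨hy, mem_closedBall_zero_iff.2 hw⟩)
  have ray : ∀ y w, y ∈ closedBall z₀ r₀ → ‖w‖ ≤ r₀ → ∀ t ∈ Icc (0 : ℝ) 1, J (y, t • w) ∈ W :=
    fun y w hy hw t ht => (box y _ hy (by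
      rw [norm_smul, Real.norm_of_nonneg ht.1]
      exact (mul_le_of_le_one_left (norm_nonneg _) ht.2).trans hw)).2.1
  have bW : ∀ y ∈ closedBall z₀ r₀, y ∈ W := fun y hy => by
    have := box y 0 hy (by simpa using hr₀.le)
    rw [hJ.init y (hJ.mem1 _ this.1)] at this
    exact this.2.1
  obtain ⟨M₁, hM₁⟩ := (isCompact_closedBall z₀ r₀).exists_bound_of_continuousOn
    (F.sι.continuousOn.mono fun y hy => hWU (bW y hy))
  obtain ⟨M₂, hM₂⟩ := (isCompact_closedBall z₀ r₀).exists_bound_of_continuousOn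
    (hρ.continuousOn.mono fun y hy => (bW y hy).2)
  have hM₁0 : 0 ≤ M₁ := (norm_nonneg _).trans (hM₁ z₀ (mem_closedBall_self hr₀.le))
  have hM₂0 : 0 ≤ M₂ := (norm_nonneg _).trans (hM₂ z₀ (mem_closedBall_self hr₀.le))
  obtain ⟨K₁, hK₁, cs⟩ := hd.cs 1
  set K : ℝ := M₂ * (K₀ * K₁ * K₀) * M₁ with hK
  have hK0 : 0 ≤ K := by positivity
  have hΨi : InjOn Ψ W := fun z hz z' hz' e => by
    have := (bil z (hWV hz) z' (hWV hz')).2
    rw [e, dist_self, mul_zero, norm_le_zero_iff, sub_eq_zero] at this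
    exact this
  refine ⟨r₀, hr₀, fun r hr hrr => ⟨K, K / a, fun k hk => (box k.1 k.2
    (closedBall_subset_closedBall hrr hk.1)
    ((mem_closedBall_zero_iff.1 hk.2).trans hrr)).1, fun w hw w' hw' e => ?_, ?_⟩⟩
  · have b := box z₀ w (mem_closedBall_self hr₀.le) ((mem_ball_zero_iff.1 hw).le.trans hrr)
    have b' := box z₀ w' (mem_closedBall_self hr₀.le) ((mem_ball_zero_iff.1 hw').le.trans hrr)
    exact hinj b.2.2 b'.2.2 (hΨi b.2.1 b'.2.1 e)
  intro T hT f hf y hy y' hy' e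
  have ha := hd.a_pos
  have hT0 : 0 ≤ T := le_trans (by positivity) hT
  have hy0 : y ∈ closedBall z₀ r₀ := ball_subset_closedBall (ball_subset_ball hrr hy)
  have hy0' : y' ∈ closedBall z₀ r₀ := ball_subset_closedBall (ball_subset_ball hrr hy')
  have hyW := bW y hy0
  have hyW' := bW y' hy0'
  obtain ⟨h, hs', hhy, hev⟩ := hB.loc T f hf y (hWU hyW) y' (hWU hyW') e
  obtain ⟨-, sp, rg, -⟩ := hev.self_of_nhds
  set A : GI →L[ℝ] GI := ρ y' ∘L fderiv ℝ h y ∘L ι y with hA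
  have hAι : ∀ v, fderiv ℝ h y (ι y v) = ι y' (A v) := fun v => by
    obtain ⟨g, hg⟩ := rg v
    rw [hhy] at hg
    rw [show A v = ρ y' (fderiv ℝ h y (ι y v)) from rfl, hg, hρι y' hyW'.2]
  have hAn : ∀ v, ‖A v‖ ≤ K * Real.exp (-(a * T)) * ‖v‖ := fun v => by
    have h0 : (y, (0 : ℝ) • v) ∈ Dm := by simpa using hJ.zero y (hWU hyW)
    have c0 : J (y, (0 : ℝ) • v) = y := by simpa using hJ.init y (hWU hyW)
    have hc := Dev.jf_ray hJ h0
    rw [c0] at hc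
    have hc' : HasDerivAt (fun t : ℝ => h (J (y, t • v))) (fderiv ℝ h y (ι y v)) 0 :=
      HasFDerivAt.comp_hasDerivAt_of_eq (l := h) 0
        (hs'.differentiableAt (by simp)).hasFDerivAt hc c0.symm
    have tc : Tendsto (fun t : ℝ => J (y, t • v)) (𝓝 0) (𝓝 y) := by
      simpa only [ContinuousAt, c0] using hc.continuousAt
    have hΨy : ContinuousAt Ψ y := hB.cont.continuousAt (F.opn.mem_nhds (hWU hyW))
    have h1 := norm_deriv_le (C := K₀ * (K₁ * Real.exp (-(a * T))) * K₀) hc hc' (by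
      refine mem_nhdsWithin_of_mem_nhds ?_
      filter_upwards [tc.eventually (hWo.mem_nhds hyW), tc.eventually hev,
        tc.eventually (hs'.continuousAt.eventually (hWo.mem_nhds (hhy ▸ hyW'))),
        tc.eventually (hΨy.eventually (closedBall_mem_nhds _ one_pos)),
        (show ContinuousAt (fun t : ℝ => ((y, t • v) : Z × GI)) 0 by fun_prop).eventually
          (hJ.op.mem_nhds h0)] with t k1 k2 k3 k4 k5
      simp only [c0]
      have b1 := (bil _ (hWV k3) _ (hWV hyW')).2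
      have b2 := cs T hT0 f hf _ _ (hSs _ k5) (by rw [dist_comm]; exact k4)
      have b3 := (bil _ (hWV k1) _ (hWV hyW)).1
      rw [← k2.1, ← e, dist_comm] at b1
      rw [dist_comm] at b3
      rw [hhy]
      calc _ ≤ K₀ * (K₁ * Real.exp (-(a * T)) * (K₀ * ‖J (y, t • v) - y‖)) :=
            b1.trans (mul_le_mul_of_nonneg_left
              (b2.trans (mul_le_mul_of_nonneg_left b3 (by positivity))) hK₀.le)
        _ = _ := by ring)
    calc ‖A v‖ ≤ ‖ρ y'‖ * ‖fderiv ℝ h y (ι y v)‖ := (ρ y').le_opNorm _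
      _ ≤ M₂ * (K₀ * (K₁ * Real.exp (-(a * T))) * K₀ * (M₁ * ‖v‖)) := by
          refine mul_le_mul (hM₂ y' hy0') (h1.trans ?_) (norm_nonneg _) hM₂0
          gcongr
          exact ((ι y).le_opNorm v).trans (by gcongr; exact hM₁ y hy0)
      _ = _ := by rw [hK]; ring
  have hA1 : ∀ v, ‖A v‖ ≤ ‖v‖ := fun v => by
    refine (hAn v).trans (mul_le_of_le_one_left (norm_nonneg _) ?_)
    have h1 : K ≤ a * T := by rwa [div_le_iff₀' ha] at hT
    rw [Real.exp_neg, mul_inv_le_iff₀ (Real.exp_pos _), one_mul]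
    linarith [Real.add_one_le_exp (a * T)]
  refine ⟨A, (injective_iff_map_eq_zero _).2 fun v hv => F.nd y (hWU hyW) v fun w => by
    rw [← sp, hAι, hv]; simp, hAn, fun w hw => ?_⟩
  have hw0 : ‖w‖ ≤ r₀ := hw.le.trans hrr
  have hw1 : ‖A w‖ ≤ r₀ := (hA1 w).trans hw0
  have b := box y w hy0 hw0
  have b' := box y' (A w) hy0' hw1
  obtain ⟨n1, n2⟩ := Dev.nat (h := h) (f := fun z => f (Ψ z)) (F.fio hWo hWU) hJ
    ((hd.cont T f hf).comp_continuousOn (hB.cont.mono hWU)) (hB.cont.mono hWU) hΨi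
    (fun z hz z' hz' e => by
      obtain ⟨k, k1, k2, k3⟩ := hB.loc T f hf z (hWU hz) z' (hWU hz') e
      refine ⟨k, k2, ?_⟩
      filter_upwards [k3, (k1.of_le two_le').eventually (by simp)] with x l1 l2
      exact ⟨⟨l2, l1.2.1, Dev.surj_of_sp l1.2.1, l1.2.2.1⟩, l1.1⟩)
    b.1 b'.1 (ray y w hy0 hw0) (ray y' _ hy0' hw1) hhy hs'.continuousAt (hev.mono fun _ k => k.1)
    (hAι w)
  refine ⟨n1, fun v ⟨g, hg⟩ => ?_⟩
  obtain ⟨k, k1, k2, k3⟩ := hB.loc T f hf _ (hWU b.2.1) _ (hWU b'.2.1) n1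
  obtain ⟨-, sp', -, rg'⟩ := k3.self_of_nhds
  rw [k2] at rg'
  exact back_of_rg sp' (F.nd _ (hWU b.2.1)) (F.iζ _ (hWU b.2.1)) (F.iζ _ (hWU b'.2.1))
    (F.sub _ (hWU b.2.1)) rg'
    ((n2 k k2 k1.continuousAt (k3.mono fun _ l => l.1) v _ (hAι v)).trans hg)

end Crest.Agent.N221.NB
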