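import Mathlib

/-! Row 221, NB (helper50): curves tangent to a graph stay on the graph. -/

set_option autoImplicit false

open Set Filter Topology Metric

namespace Crest.Agent.N221.NB

variable {E G V : Type} [NormedAddCommGroup E] [NormedSpace ℝ E] [NormedAddCommGroup G]
  [NormedSpace ℝ G] [NormedAddCommGroup V] [NormedSpace ℝ V]

/-- a curve driven by a smooth frame that is tangent to `{φ = 0}` stays in `{φ = 0}`
(`π` = retraction on this set, `M z = Dφ z ∘ frame z`) -/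
theorem stay {φ : E → V} {π : E → E} {M : E → G →L[ℝ] V} {c : ℝ → E} {v : ℝ → G} {a b : ℝ}
    (hc : ContinuousOn c (Icc a b)) (hv : ContinuousOn v (Icc a b)) (hφ : Continuous φ)
    (hπ : ∀ z, ‖z - π z‖ ≤ ‖φ z‖)
    (hd : ∀ t ∈ Ico a b, HasDerivWithinAt (fun t => φ (c t)) (M (c t) (v t)) (Ici t) t)
    (hM : ∀ t ∈ Ico a b, φ (c t) = 0 → ContDiffAt ℝ 1 M (c t) ∧ ∀ᶠ z in 𝓝 (c t), M (π z) = 0)
    (h0 : φ (c a) = 0) : ∀ t ∈ Icc a b, φ (c t) = 0 := by
  have h1 := hφ.comp_continuousOn hc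
  refine IsClosed.Icc_subset_of_forall_mem_nhdsWithin (s := {t | φ (c t) = 0})
    (inter_comm _ _ ▸ h1.preimage_isClosed_of_isClosed isClosed_Icc (isClosed_singleton (x := 0)))
    h0 fun t ⟨ht, hab⟩ => ?_
  obtain ⟨B, hB⟩ := isCompact_Icc.exists_bound_of_continuousOn hv
  obtain ⟨h2, h3⟩ := hM t hab ht
  obtain ⟨K, U, hU, hK⟩ := h2.exists_lipschitzOnWith
  have h4 : Tendsto π (𝓝 (c t)) (𝓝 (c t)) := by
    have := (tendsto_id (x := 𝓝 (c t))).sub (squeeze_zero_norm hπ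
      (by simpa [show φ (c t) = 0 from ht] using (hφ.tendsto (c t)).norm))
    simpa using this
  have h5 := (hc t (Ico_subset_Icc_self hab)).eventually (h3.and ((h4.eventually hU).and hU))
  obtain ⟨e, he, h6⟩ := mem_nhdsGE_iff_exists_Icc_subset.1
    (inter_mem ((nhdsWithin_le_iff.2 (Icc_mem_nhdsGE_of_mem hab)) h5) (Icc_mem_nhdsGE_of_mem hab))
  have h7 : Icc t e ⊆ Icc a b := fun s hs => (h6 hs).2
  refine mem_of_superset (Icc_mem_nhdsGT he) (eq_zero_of_abs_deriv_le_mul_abs_self_of_eq_zero_right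
    (K := K * B) (h1.mono h7) (fun s hs => hd s ⟨(h7 (Ico_subset_Icc_self hs)).1,
      hs.2.trans_le (h7 ⟨le_of_lt he, le_rfl⟩).2⟩) ht fun s hs => ?_)
  obtain ⟨⟨a1, a2, a3⟩, a4⟩ := h6 (Ico_subset_Icc_self hs)
  have a5 := hK.norm_sub_le a3 a2
  rw [a1, sub_zero] at a5
  refine ((M _).le_opNorm _).trans ((mul_le_mul (a5.trans (mul_le_mul_of_nonneg_left (hπ _) K.2))
    (hB s a4) (norm_nonneg _) (by positivity)).trans_eq ?_)
  exact mul_right_comm _ _ _

/-- a curve driven by a `C¹` frame which is tangent to the graph of `F` along it stays on it -/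
theorem stay_gr {F : E → V} (hF : ContDiff ℝ 2 F) {io : E × V → G →L[ℝ] E × V} {c : ℝ → E × V}
    {v : ℝ → G} {a b : ℝ} (hc : ContinuousOn c (Icc a b)) (hv : ContinuousOn v (Icc a b))
    (hd : ∀ t ∈ Ico a b, HasDerivWithinAt c (io (c t) (v t)) (Ici t) t)
    (hio : ∀ t ∈ Ico a b, (c t).2 = F (c t).1 → ContDiffAt ℝ 1 io (c t) ∧
      ∀ᶠ q in 𝓝 (c t).1, ∀ g, (io (q, F q) g).2 = fderiv ℝ F q (io (q, F q) g).1)
    (h0 : (c a).2 = F (c a).1) : ∀ t ∈ Icc a b, (c t).2 = F (c t).1 := by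
  have h := stay (φ := fun z : E × V => z.2 - F z.1) (π := fun z => (z.1, F z.1))
    (M := fun z => (ContinuousLinearMap.snd ℝ E V -
      fderiv ℝ F z.1 ∘L ContinuousLinearMap.fst ℝ E V) ∘L io z) hc hv
    (continuous_snd.sub (hF.continuous.comp continuous_fst))
    (fun z => by simp [Prod.norm_def]) (fun t ht => ?_) (fun t ht h => ?_) (sub_eq_zero.2 h0)
  · exact fun t ht => sub_eq_zero.1 (h t ht)
  · have h1 := hd t ht
    exact ((hasFDerivAt_snd (𝕜 := ℝ)).sub ((hF.differentiable two_ne_zero _).hasFDerivAt.comp _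
      (hasFDerivAt_fst (𝕜 := ℝ)))).comp_hasDerivWithinAt t h1
  · obtain ⟨h1, h2⟩ := hio t ht (sub_eq_zero.1 h)
    refine ⟨(contDiffAt_const.sub ((((hF.fderiv_right (m := 1) le_rfl).comp
      contDiff_fst).contDiffAt).clm_comp contDiffAt_const)).clm_comp h1, ?_⟩
    filter_upwards [continuous_fst.continuousAt.eventually h2] with z hz
    ext1 g
    exact sub_eq_zero.2 (hz g)

end Crest.Agent.N221.NB
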